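import Vale.Agent.P235.H786.NC
import Vale.Agent.P235.H56.MinTrans

/-! (CG) in graphs without a `K_{3,3}` minor, deleting the neighbours of a vertex leaves a large grid
(helper786). -/

set_option linter.all false

namespace Vale.Agent.P235.H786

open SimpleGraph Vale.Agent.P235.H134 Vale.Agent.P235.H56 Vale.Agent.P235.H141
open Vale.Agent.P235.H341W (capG)

theorem grid_connected {n : ℕ} (h : 1 ≤ n) : (grid n).Connected := by
  obtain ⟨m, rfl⟩ : ∃ m, n = m + 1 := ⟨n - 1, by omega⟩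
  exact (pathGraph_connected m).boxProd (pathGraph_connected m)

/-- the cells of a rectangle -/
def rect (n a b c d : ℕ) : Set (Fin n × Fin n) :=
  {x | a ≤ x.1.val ∧ x.1.val < b ∧ c ≤ x.2.val ∧ x.2.val < d}

/-- a map to the interval `[a, b)` -/
def clampF {n : ℕ} (a b : ℕ) (hb : b ≤ n) (hab : a < b) (x : Fin n) : Fin n :=
  ⟨max a (min x.val (b - 1)), by omega⟩

theorem rect_connected {n a b c d : ℕ} (hab : a < b) (hcd : c < d) (hb : b ≤ n) (hd : d ≤ n) :
    ((grid n).induce (rect n a b c d)).Connected := by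
  have hn : 1 ≤ n := by omega
  refine H134.connected_of_map (A := grid n)
    (fun x => (⟨(clampF a b hb hab x.1, clampF c d hd hcd x.2), by
      refine ⟨?_, ?_, ?_, ?_⟩
      · show a ≤ max a (min x.1.val (b - 1)); omega
      · show max a (min x.1.val (b - 1)) < b; omega
      · show c ≤ max c (min x.2.val (d - 1)); omega
      · show max c (min x.2.val (d - 1)) < d; omega⟩ : rect n a b c d)) ?_ ?_ (grid_connected hn)
  · rintro ⟨⟨x, y⟩, h1, h2, h3, h4⟩
    refine ⟨(x, y), Subtype.ext (Prod.ext (Fin.ext ?_) (Fin.ext ?_))⟩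
    · show max a (min x.val (b - 1)) = x.val
      simp only at h1 h2; omega
    · show max c (min y.val (d - 1)) = y.val
      simp only at h3 h4; omega
  · rintro ⟨x, y⟩ ⟨x', y'⟩ h
    rw [grid_adj] at h
    simp only at h
    rcases h with ⟨h, e⟩ | ⟨h, e⟩
    · subst e
      by_cases he : max a (min x.val (b - 1)) = max a (min x'.val (b - 1))
      · exact Or.inl (Subtype.ext (Prod.ext (Fin.ext he) rfl))
      · refine Or.inr ((grid_adj _ _).2 (Or.inl ⟨?_, rfl⟩))
        show max a (min x.val (b - 1)) + 1 = max a (min x'.val (b - 1)) ∨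
          max a (min x'.val (b - 1)) + 1 = max a (min x.val (b - 1))
        omega
    · subst e
      by_cases he : max c (min y.val (d - 1)) = max c (min y'.val (d - 1))
      · exact Or.inl (Subtype.ext (Prod.ext rfl (Fin.ext he)))
      · refine Or.inr ((grid_adj _ _).2 (Or.inr ⟨?_, rfl⟩))
        show max c (min y.val (d - 1)) + 1 = max c (min y'.val (d - 1)) ∨
          max c (min y'.val (d - 1)) + 1 = max c (min y.val (d - 1))
        omega

/-- connected sets of `G` stay connected in `capG G T` -/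
theorem cap_conn {V : Type} {G : SimpleGraph V} (T : Set V) {S : Set V}
    (h : (G.induce S).Connected) : ((capG G T).induce (some '' S)).Connected := by
  refine H134.connected_of_map (A := G.induce S)
    (fun x => (⟨some x.1, x.1, x.2, rfl⟩ : (some '' S : Set (Option V)))) ?_ ?_ h
  · rintro ⟨_, x, hx, rfl⟩
    exact ⟨⟨x, hx⟩, rfl⟩
  · rintro ⟨x, hx⟩ ⟨y, hy⟩ hxy
    exact Or.inr hxy

/-- minors of `G` with a vertex joined to the branch sets which meet `T` -/
theorem cap_minor {V W : Type} {G : SimpleGraph V} {H : SimpleGraph W} {T : Set V} {μ : W → Set V}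
    (h1 : ∀ a, (G.induce (μ a)).Connected) (h2 : ∀ a b, a ≠ b → Disjoint (μ a) (μ b))
    (h3 : ∀ a b, H.Adj a b → ∃ x ∈ μ a, ∃ y ∈ μ b, G.Adj x y) :
    IsMinor (capG H {a | (μ a ∩ T).Nonempty}) (capG G T) := by
  refine ⟨fun a => match a with | none => {none} | some a => some '' μ a, ?_, ?_, ?_⟩
  · rintro (_ | a)
    · exact conn_single _ _
    · exact cap_conn T (h1 a)
  · rintro (_ | a) (_ | b) hab
    · exact absurd rfl hab
    · rw [Set.disjoint_left]
      rintro _ h ⟨x, _, rfl⟩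
      exact absurd h (by simp)
    · rw [Set.disjoint_left]
      rintro _ ⟨x, _, rfl⟩ h
      exact absurd h (by simp)
    · rw [Set.disjoint_left]
      rintro _ ⟨x, hx, rfl⟩ ⟨y, hy, h⟩
      obtain rfl := Option.some.inj h
      exact Set.disjoint_left.1 (h2 a b fun e => hab (by rw [e])) hx hy
  · rintro (_ | a) (_ | b) hab
    · exact absurd hab (by simp)
    · obtain ⟨x, hx, hT⟩ := (show (μ b ∩ T).Nonempty from hab)
      exact ⟨none, rfl, some x, ⟨x, hx, rfl⟩, hT⟩
    · obtain ⟨x, hx, hT⟩ := (show (μ a ∩ T).Nonempty from hab)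
      exact ⟨some x, ⟨x, hx, rfl⟩, none, rfl, hT⟩
    · obtain ⟨x, hx, y, hy, h⟩ := h3 a b hab
      exact ⟨some x, ⟨x, hx, rfl⟩, some y, ⟨y, hy, rfl⟩, h⟩

/-- the grid and a vertex joined to the three middle blocks -/
theorem block_minor {r : ℕ} (hr : 1 ≤ r) (S : Set (Fin (3 * r) × Fin (3 * r)))
    (h : ∀ a : Fin 3, (rect (3 * r) (a.val * r) (a.val * r + r) r (2 * r) ∩ S).Nonempty) :
    IsMinor K33 (capG (grid (3 * r)) S) := by
  have ha : ∀ a : Fin 3, a.val * r + r ≤ 3 * r := by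
    intro a
    have := a.isLt
    nlinarith
  let L : Fin 3 → Set (Option (Fin (3 * r) × Fin (3 * r))) := fun k =>
    if k = 0 then some '' rect (3 * r) 0 (3 * r) 0 r
    else if k = 1 then some '' rect (3 * r) 0 (3 * r) (2 * r) (3 * r) else {none}
  let M : Fin 3 → Set (Option (Fin (3 * r) × Fin (3 * r))) := fun a =>
    some '' rect (3 * r) (a.val * r) (a.val * r + r) r (2 * r)
  have hL : ∀ k, ((capG (grid (3 * r)) S).induce (L k)).Connected := by
    intro k
    fin_cases k
    · exact cap_conn S (rect_connected (by omega) (by omega) le_rfl (by omega))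
    · exact cap_conn S (rect_connected (by omega) (by omega) le_rfl le_rfl)
    · exact conn_single _ _
  have hM : ∀ a, ((capG (grid (3 * r)) S).induce (M a)).Connected := fun a =>
    cap_conn S (rect_connected (by omega) (by omega) (ha a) (by omega))
  have dLM : ∀ k a, Disjoint (L k) (M a) := by
    intro k a
    rw [Set.disjoint_left]
    rintro z hz ⟨x, hx, rfl⟩
    obtain ⟨x1, x2, x3, x4⟩ := hx
    fin_cases k
    · obtain ⟨y, hy, e⟩ := hz
      obtain rfl := Option.some.inj e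
      obtain ⟨y1, y2, y3, y4⟩ := hy
      omega
    · obtain ⟨y, hy, e⟩ := hz
      obtain rfl := Option.some.inj e
      obtain ⟨y1, y2, y3, y4⟩ := hy
      omega
    · exact absurd hz (by simp [L])
  have dL : ∀ k l, k ≠ l → Disjoint (L k) (L l) := by
    intro k l hkl
    rw [Set.disjoint_left]
    intro z hz hz'
    fin_cases k <;> fin_cases l
    · exact hkl rfl
    · obtain ⟨x, hx, rfl⟩ := hz
      obtain ⟨y, hy, e⟩ := hz'
      obtain rfl := Option.some.inj e
      obtain ⟨x1, x2, x3, x4⟩ := hx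
      obtain ⟨y1, y2, y3, y4⟩ := hy
      omega
    · obtain ⟨x, hx, rfl⟩ := hz
      exact absurd hz' (by simp [L])
    · obtain ⟨x, hx, rfl⟩ := hz
      obtain ⟨y, hy, e⟩ := hz'
      obtain rfl := Option.some.inj e
      obtain ⟨x1, x2, x3, x4⟩ := hx
      obtain ⟨y1, y2, y3, y4⟩ := hy
      omega
    · exact hkl rfl
    · obtain ⟨x, hx, rfl⟩ := hz
      exact absurd hz' (by simp [L])
    · obtain ⟨x, hx, rfl⟩ := hz'
      exact absurd hz (by simp [L])
    · obtain ⟨x, hx, rfl⟩ := hz'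
      exact absurd hz (by simp [L])
    · exact hkl rfl
  have dM : ∀ a b, a ≠ b → Disjoint (M a) (M b) := by
    intro a b hab
    rw [Set.disjoint_left]
    rintro _ ⟨x, ⟨x1, x2, x3, x4⟩, rfl⟩ ⟨y, ⟨y1, y2, y3, y4⟩, e⟩
    obtain rfl := Option.some.inj e
    rcases Nat.lt_or_gt_of_ne (fun h => hab (Fin.ext h)) with h | h
    · have : a.val * r + r ≤ b.val * r := by
        have : (a.val + 1) * r ≤ b.val * r := Nat.mul_le_mul_right r h
        linarith
      omega
    · have : b.val * r + r ≤ a.val * r := by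
        have : (b.val + 1) * r ≤ a.val * r := Nat.mul_le_mul_right r h
        linarith
      omega
  have e : ∀ k a, ∃ x ∈ L k, ∃ y ∈ M a, (capG (grid (3 * r)) S).Adj x y := by
    intro k a
    have := ha a
    fin_cases k
    · refine ⟨some (⟨a.val * r, by omega⟩, ⟨r - 1, by omega⟩), ⟨_, ⟨?_, ?_, ?_, ?_⟩, rfl⟩,
        some (⟨a.val * r, by omega⟩, ⟨r, by omega⟩), ⟨_, ⟨?_, ?_, ?_, ?_⟩, rfl⟩,
        (grid_adj _ _).2 (Or.inr ⟨Or.inl ?_, rfl⟩)⟩ <;> (simp only; omega)
    · refine ⟨some (⟨a.val * r, by omega⟩, ⟨2 * r, by omega⟩), ⟨_, ⟨?_, ?_, ?_, ?_⟩, rfl⟩,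
        some (⟨a.val * r, by omega⟩, ⟨2 * r - 1, by omega⟩), ⟨_, ⟨?_, ?_, ?_, ?_⟩, rfl⟩,
        (grid_adj _ _).2 (Or.inr ⟨Or.inr ?_, rfl⟩)⟩ <;> (simp only; omega)
    · obtain ⟨x, hx, hS⟩ := h a
      exact ⟨none, rfl, some x, ⟨x, hx, rfl⟩, hS⟩
  refine ⟨Sum.elim L M, ?_, ?_, ?_⟩
  · rintro (k | a)
    · exact hL k
    · exact hM a
  · rintro (k | a) (l | b) hab
    · exact dL k l fun e => hab (by rw [e])
    · exact dLM k b
    · exact (dLM l a).symm
    · exact dM a b fun e => hab (by rw [e])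
  · rintro (k | a) (l | b) hab
    · exact absurd hab (by simp)
    · exact e k b
    · obtain ⟨x, hx, y, hy, h⟩ := e l a
      exact ⟨y, hy, x, hx, h.symm⟩
    · exact absurd hab (by simp)

/-- (CG) -/
theorem cg : CapGridStmt := by
  rintro V _ G T r hr hK ⟨μ, h1, h2, h3⟩
  by_cases hall : ∀ a : Fin 3, (rect (3 * r) (a.val * r) (a.val * r + r) r (2 * r) ∩
      {c | (μ c ∩ T).Nonempty}).Nonempty
  · exact absurd (H56.minor_trans (block_minor hr _ hall) (cap_minor h1 h2 h3)) hK
  push Not at hall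
  obtain ⟨a, ha⟩ := hall
  have hfree : ∀ c ∈ rect (3 * r) (a.val * r) (a.val * r + r) r (2 * r), ∀ x ∈ μ c, x ∉ T := by
    intro c hc x hx hxT
    have : c ∈ rect (3 * r) (a.val * r) (a.val * r + r) r (2 * r) ∩
      {c | (μ c ∩ T).Nonempty} := ⟨hc, x, hx, hxT⟩
    rw [ha] at this
    exact this
  have hb : a.val * r + r ≤ 3 * r := by
    have := a.isLt
    nlinarith
  let φ : Fin r × Fin r → Fin (3 * r) × Fin (3 * r) := fun c =>
    (⟨a.val * r + c.1.val, by have := c.1.isLt; omega⟩, ⟨r + c.2.val, by have := c.2.isLt; omega⟩)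
  have hφ : ∀ c, φ c ∈ rect (3 * r) (a.val * r) (a.val * r + r) r (2 * r) := by
    intro c
    have := c.1.isLt
    have := c.2.isLt
    refine ⟨?_, ?_, ?_, ?_⟩
    · show a.val * r ≤ a.val * r + c.1.val; omega
    · show a.val * r + c.1.val < a.val * r + r; omega
    · show r ≤ r + c.2.val; omega
    · show r + c.2.val < 2 * r; omega
  have hinj : ∀ c d, φ c = φ d → c = d := by
    intro c d h
    have e1 : a.val * r + c.1.val = a.val * r + d.1.val := congrArg (fun z => z.1.val) h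
    have e2 : r + c.2.val = r + d.2.val := congrArg (fun z => z.2.val) h
    exact Prod.ext (Fin.ext (by omega)) (Fin.ext (by omega))
  refine ⟨fun c => {x | x.1 ∈ μ (φ c)}, fun c => ?_, fun c d hcd => ?_, fun c d hcd => ?_⟩
  · refine H134.connected_of_map (A := G.induce (μ (φ c)))
      (fun x => (⟨⟨x.1, hfree _ (hφ c) x.1 x.2⟩, x.2⟩ : {x : (Tᶜ : Set V) | x.1 ∈ μ (φ c)}))
      ?_ ?_ (h1 (φ c))
    · rintro ⟨⟨x, hx⟩, hx'⟩
      exact ⟨⟨x, hx'⟩, rfl⟩
    · rintro ⟨x, hx⟩ ⟨y, hy⟩ hxy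
      exact Or.inr hxy
  · rw [Set.disjoint_left]
    rintro ⟨x, hx⟩ hc hd
    exact Set.disjoint_left.1 (h2 _ _ fun e => hcd (hinj c d e)) hc hd
  · have had : (grid (3 * r)).Adj (φ c) (φ d) := by
      rw [grid_adj] at hcd ⊢
      rcases hcd with ⟨h, e⟩ | ⟨h, e⟩
      · refine Or.inl ⟨?_, ?_⟩
        · show a.val * r + c.1.val + 1 = a.val * r + d.1.val ∨
            a.val * r + d.1.val + 1 = a.val * r + c.1.val
          omega
        · exact Fin.ext (show r + c.2.val = r + d.2.val by rw [e])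
      · refine Or.inr ⟨?_, ?_⟩
        · show r + c.2.val + 1 = r + d.2.val ∨ r + d.2.val + 1 = r + c.2.val
          omega
        · exact Fin.ext (show a.val * r + c.1.val = a.val * r + d.1.val by rw [e])
    obtain ⟨x, hx, y, hy, hxy⟩ := h3 _ _ had
    exact ⟨⟨x, hfree _ (hφ c) x hx⟩, hx, ⟨y, hfree _ (hφ d) y hy⟩, hy, hxy⟩

end Vale.Agent.P235.H786
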