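import Vale.Agent.P235.H786.CG
import Vale.Agent.P235.H141.JDefs2

/-! (RQ) a grid survives the deletion of few vertices, (GM) smaller grids (helper786). -/

set_option linter.all false

namespace Vale.Agent.P235.H786

open SimpleGraph Vale.Agent.P235.H134 Vale.Agent.P235.H56 Vale.Agent.P235.H141

/-- a block of a grid minor whose branch sets miss `T` -/
theorem sub_minor {V : Type} {G : SimpleGraph V} {T : Set V} {n r a b : ℕ} (ha : a + r ≤ n)
    (hb : b + r ≤ n) {μ : Fin n × Fin n → Set V} (h1 : ∀ c, (G.induce (μ c)).Connected)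
    (h2 : ∀ c d, c ≠ d → Disjoint (μ c) (μ d))
    (h3 : ∀ c d, (grid n).Adj c d → ∃ x ∈ μ c, ∃ y ∈ μ d, G.Adj x y)
    (hfree : ∀ c ∈ rect n a (a + r) b (b + r), ∀ x ∈ μ c, x ∉ T) :
    IsMinor (grid r) (G.induce Tᶜ) := by
  let φ : Fin r × Fin r → Fin n × Fin n := fun c =>
    (⟨a + c.1.val, by have := c.1.isLt; omega⟩, ⟨b + c.2.val, by have := c.2.isLt; omega⟩)
  have hφ : ∀ c, φ c ∈ rect n a (a + r) b (b + r) := by
    intro c
    have := c.1.isLt
    have := c.2.isLt
    refine ⟨?_, ?_, ?_, ?_⟩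
    · show a ≤ a + c.1.val; omega
    · show a + c.1.val < a + r; omega
    · show b ≤ b + c.2.val; omega
    · show b + c.2.val < b + r; omega
  have hinj : ∀ c d, φ c = φ d → c = d := by
    intro c d h
    have e1 : a + c.1.val = a + d.1.val := congrArg (fun z => z.1.val) h
    have e2 : b + c.2.val = b + d.2.val := congrArg (fun z => z.2.val) h
    exact Prod.ext (Fin.ext (by omega)) (Fin.ext (by omega))
  refine ⟨fun c => {x | x.1 ∈ μ (φ c)}, fun c => ?_, fun c d hcd => ?_, fun c d hcd => ?_⟩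
  · refine H134.connected_of_map (A := G.induce (μ (φ c)))
      (fun x => (⟨⟨x.1, hfree _ (hφ c) x.1 x.2⟩, x.2⟩ : {x : (Tᶜ : Set V) | x.1 ∈ μ (φ c)}))
      ?_ ?_ (h1 (φ c))
    · rintro ⟨⟨x, hx⟩, hx'⟩
      exact ⟨⟨x, hx'⟩, rfl⟩
    · rintro ⟨x, hx⟩ ⟨y, hy⟩ hxy
      exact Or.inr hxy
  · rw [Set.disjoint_left]
    rintro ⟨x, hx⟩ hc hd
    exact Set.disjoint_left.1 (h2 _ _ fun e => hcd (hinj c d e)) hc hd
  · have had : (grid n).Adj (φ c) (φ d) := by
      rw [grid_adj] at hcd ⊢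
      rcases hcd with ⟨h, e⟩ | ⟨h, e⟩
      · refine Or.inl ⟨?_, ?_⟩
        · show a + c.1.val + 1 = a + d.1.val ∨ a + d.1.val + 1 = a + c.1.val
          omega
        · exact Fin.ext (show b + c.2.val = b + d.2.val by rw [e])
      · refine Or.inr ⟨?_, ?_⟩
        · show b + c.2.val + 1 = b + d.2.val ∨ b + d.2.val + 1 = b + c.2.val
          omega
        · exact Fin.ext (show a + c.1.val = a + d.1.val by rw [e])
    obtain ⟨x, hx, y, hy, hxy⟩ := h3 _ _ had
    exact ⟨⟨x, hfree _ (hφ c) x hx⟩, hx, ⟨y, hfree _ (hφ d) y hy⟩, hy, hxy⟩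

/-- (RQ), any number of deleted vertices -/
theorem del (k : ℕ) {V : Type} [Finite V] (G : SimpleGraph V) (T : Set V) (s : ℕ)
    (hT : T.ncard < k * k) (h : IsMinor (grid (k * s)) G) : IsMinor (grid s) (G.induce Tᶜ) := by
  obtain ⟨μ, h1, h2, h3⟩ := h
  have hk : ∀ a : Fin k, a.val * s + s ≤ k * s := by
    intro a
    have := Nat.mul_le_mul_right s (Nat.succ_le_of_lt a.isLt)
    rw [Nat.succ_mul] at this
    exact this
  by_contra hcon
  have hall : ∀ p : Fin k × Fin k, ∃ x ∈ T, ∃ c ∈ rect (k * s) (p.1.val * s) (p.1.val * s + s)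
      (p.2.val * s) (p.2.val * s + s), x ∈ μ c := by
    intro p
    by_contra hp
    push Not at hp
    exact hcon (sub_minor (hk p.1) (hk p.2) h1 h2 h3 fun c hc x hx hxT => hp x hxT c hc hx)
  choose t ht c hc htc using hall
  have key : ∀ (a b : Fin k) (x : ℕ), a.val * s ≤ x → x < a.val * s + s → b.val * s ≤ x →
      x < b.val * s + s → a = b := by
    intro a b x a1 a2 b1 b2
    refine Fin.ext ?_
    by_contra hne
    rcases Nat.lt_or_gt_of_ne hne with h | h
    · have := Nat.mul_le_mul_right s (Nat.succ_le_of_lt h)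
      rw [Nat.succ_mul] at this
      omega
    · have := Nat.mul_le_mul_right s (Nat.succ_le_of_lt h)
      rw [Nat.succ_mul] at this
      omega
  have hinj : Function.Injective t := by
    intro p q hpq
    have hcc : c p = c q := by
      by_contra hne
      exact Set.disjoint_left.1 (h2 _ _ hne) (htc p) (hpq ▸ htc q)
    obtain ⟨p1, p2, p3, p4⟩ := hc p
    obtain ⟨q1, q2, q3, q4⟩ := hc q
    rw [← hcc] at q1 q2 q3 q4
    exact Prod.ext (key _ _ _ p1 p2 q1 q2) (key _ _ _ p3 p4 q3 q4)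
  have hle : Nat.card (Fin k × Fin k) ≤ Nat.card T :=
    Nat.card_le_card_of_injective (fun p => (⟨t p, ht p⟩ : T)) fun p q h =>
      hinj (congrArg Subtype.val h)
  rw [Nat.card_prod, Nat.card_fin, Nat.card_coe_set_eq] at hle
  omega

/-- (RQ) -/
theorem delStmt : DelStmt := fun V _ G T s _ hT h => del 3 G T s (by omega) h

/-- (GM) -/
theorem gridMonoStmt : GridMonoStmt := by
  intro r s hrs
  refine ⟨fun c => {(Fin.castLE hrs c.1, Fin.castLE hrs c.2)}, fun c => conn_single _ _,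
    fun c d hcd => ?_, fun c d hcd => ?_⟩
  · rw [Set.disjoint_left]
    intro x hx hx'
    have e := hx.symm.trans hx'
    refine hcd (Prod.ext ?_ ?_)
    · exact Fin.castLE_injective hrs (congrArg Prod.fst e)
    · exact Fin.castLE_injective hrs (congrArg Prod.snd e)
  · refine ⟨_, rfl, _, rfl, ?_⟩
    rw [grid_adj] at hcd ⊢
    rcases hcd with ⟨h, e⟩ | ⟨h, e⟩
    · exact Or.inl ⟨h, by simp only [e]⟩
    · exact Or.inr ⟨h, by simp only [e]⟩

end Vale.Agent.P235.H786
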