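import Vale.Agent.P235.H606.UDefs
import Vale.Agent.P235.H56.MinTrans
import Vale.Agent.P235.H134.Grid.MinorRow

/-! Theorem U: the smallest ball with a given minor (helper786). -/

set_option linter.all false

namespace Vale.Agent.P235.H786

open SimpleGraph Vale.Agent.P235 Vale.Agent.P235.H134 Vale.Agent.P235.H56 Vale.Agent.P235.H606

theorem conn_coe {V : Type} {G : SimpleGraph V} {S : Set V} {T : Set S}
    (h : ((G.induce S).induce T).Connected) : (G.induce (Subtype.val '' T)).Connected := by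
  refine H134.connected_of_map (A := (G.induce S).induce T)
    (fun x => (⟨x.1.1, x.1, x.2, rfl⟩ : (Subtype.val '' T : Set V))) ?_ ?_ h
  · rintro ⟨_, x, hx, rfl⟩
    exact ⟨⟨x, hx⟩, rfl⟩
  · rintro ⟨x, hx⟩ ⟨y, hy⟩ hxy
    exact Or.inr hxy

/-- minors of disjoint induced subgraphs -/
theorem minor_sum {V A B : Type} {G : SimpleGraph V} {H1 : SimpleGraph A} {H2 : SimpleGraph B}
    {S T : Set V} (hST : Disjoint S T) (h1 : IsMinor H1 (G.induce S))
    (h2 : IsMinor H2 (G.induce T)) : IsMinor (H1 ⊕g H2) G := by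
  obtain ⟨μ, a1, a2, a3⟩ := h1
  obtain ⟨ν, b1, b2, b3⟩ := h2
  refine ⟨Sum.elim (fun a => Subtype.val '' μ a) (fun b => Subtype.val '' ν b), ?_, ?_, ?_⟩
  · rintro (a | b)
    · exact conn_coe (a1 a)
    · exact conn_coe (b1 b)
  · rintro (a | a) (b | b) hab
    · rw [Set.disjoint_left]
      rintro _ ⟨x, hx, rfl⟩ ⟨y, hy, e⟩
      obtain rfl := Subtype.ext e
      exact Set.disjoint_left.1 (a2 a b fun e => hab (by rw [e])) hx hy
    · rw [Set.disjoint_left]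
      rintro _ ⟨x, hx, rfl⟩ ⟨y, hy, e⟩
      exact Set.disjoint_left.1 hST x.2 (e ▸ y.2)
    · rw [Set.disjoint_left]
      rintro _ ⟨x, hx, rfl⟩ ⟨y, hy, e⟩
      exact Set.disjoint_left.1 hST y.2 (e ▸ x.2)
    · rw [Set.disjoint_left]
      rintro _ ⟨x, hx, rfl⟩ ⟨y, hy, e⟩
      obtain rfl := Subtype.ext e
      exact Set.disjoint_left.1 (b2 a b fun e => hab (by rw [e])) hx hy
  · rintro (a | a) (b | b) hab
    · obtain ⟨x, hx, y, hy, h⟩ := a3 a b (by simpa using hab)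
      exact ⟨x.1, ⟨x, hx, rfl⟩, y.1, ⟨y, hy, rfl⟩, h⟩
    · exact absurd hab (by simp)
    · exact absurd hab (by simp)
    · obtain ⟨x, hx, y, hy, h⟩ := b3 a b (by simpa using hab)
      exact ⟨x.1, ⟨x, hx, rfl⟩, y.1, ⟨y, hy, rfl⟩, h⟩

/-- minors of subgraphs induced on smaller sets -/
theorem minor_mono {V A : Type} {G : SimpleGraph V} {H : SimpleGraph A} {S T : Set V}
    (hST : S ⊆ T) (h : IsMinor H (G.induce S)) : IsMinor H (G.induce T) := by
  obtain ⟨μ, a1, a2, a3⟩ := h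
  refine ⟨fun a => {x | ∃ y ∈ μ a, y.1 = x.1}, fun a => ?_, fun a b hab => ?_, fun a b hab => ?_⟩
  · refine H134.connected_of_map (A := (G.induce S).induce (μ a))
      (fun x => (⟨⟨x.1.1, hST x.1.2⟩, x.1, x.2, rfl⟩ : {x : T | ∃ y ∈ μ a, y.1 = x.1})) ?_ ?_ (a1 a)
    · rintro ⟨⟨x, hx⟩, y, hy, e⟩
      exact ⟨⟨y, hy⟩, Subtype.ext (Subtype.ext e)⟩
    · rintro ⟨x, hx⟩ ⟨y, hy⟩ hxy
      exact Or.inr hxy
  · rw [Set.disjoint_left]
    rintro x ⟨y, hy, e⟩ ⟨z, hz, e'⟩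
    obtain rfl := Subtype.ext (e.trans e'.symm)
    exact Set.disjoint_left.1 (a2 a b hab) hy hz
  · obtain ⟨x, hx, y, hy, h⟩ := a3 a b hab
    exact ⟨⟨x.1, hST x.2⟩, ⟨x, hx, rfl⟩, ⟨y.1, hST y.2⟩, ⟨y, hy, rfl⟩, h⟩

theorem minor_univ {V A : Type} {G : SimpleGraph V} {H : SimpleGraph A} {S : Set V}
    (hS : ∀ v, v ∈ S) (h : IsMinor H G) : IsMinor H (G.induce S) := by
  obtain ⟨μ, a1, a2, a3⟩ := h
  refine ⟨fun a => {x | x.1 ∈ μ a}, fun a => ?_, fun a b hab => ?_, fun a b hab => ?_⟩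
  · refine H134.connected_of_map (A := G.induce (μ a))
      (fun x => (⟨⟨x.1, hS x.1⟩, x.2⟩ : {x : S | x.1 ∈ μ a})) ?_ ?_ (a1 a)
    · rintro ⟨⟨x, hx⟩, hx'⟩
      exact ⟨⟨x, hx'⟩, rfl⟩
    · rintro ⟨x, hx⟩ ⟨y, hy⟩ hxy
      exact Or.inr hxy
  · rw [Set.disjoint_left]
    rintro ⟨x, hx⟩ h1 h2
    exact Set.disjoint_left.1 (a2 a b hab) h1 h2
  · obtain ⟨x, hx, y, hy, h⟩ := a3 a b hab
    exact ⟨⟨x, hS x⟩, hx, ⟨y, hS y⟩, hy, h⟩

theorem minor_ind {V A : Type} {G : SimpleGraph V} {H : SimpleGraph A} {S : Set V}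
    (h : IsMinor H (G.induce S)) : IsMinor H G := by
  obtain ⟨μ, a1, a2, a3⟩ := h
  refine ⟨fun a => Subtype.val '' μ a, fun a => conn_coe (a1 a), fun a b hab => ?_,
    fun a b hab => ?_⟩
  · rw [Set.disjoint_left]
    rintro _ ⟨x, hx, rfl⟩ ⟨y, hy, e⟩
    obtain rfl := Subtype.ext e
    exact Set.disjoint_left.1 (a2 a b hab) hx hy
  · obtain ⟨x, hx, y, hy, h⟩ := a3 a b hab
    exact ⟨x.1, ⟨x, hx, rfl⟩, y.1, ⟨y, hy, rfl⟩, h⟩

/-- a graph with at most `r` vertices is a minor of `K_r` -/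
theorem minor_top {A : Type} [Finite A] (H : SimpleGraph A) {r : ℕ} (hr : Nat.card A ≤ r) :
    IsMinor H (⊤ : SimpleGraph (Fin r)) := by
  have := Fintype.ofFinite A
  have hc : Fintype.card A ≤ Fintype.card (Fin r) := by
    rw [Fintype.card_fin, ← Nat.card_eq_fintype_card]; exact hr
  obtain ⟨f⟩ := Function.Embedding.nonempty_of_card_le hc
  refine ⟨fun a => {f a}, fun a => conn_single _ _, fun a b hab => ?_, fun a b hab => ?_⟩
  · rw [Set.disjoint_singleton]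
    exact fun e => hab (f.injective e)
  · exact ⟨_, rfl, _, rfl, fun e => hab.ne (f.injective e)⟩

theorem pathDist_nonneg {V : Type} {G : SimpleGraph V} {ℓ : Sym2 V → ℝ}
    (hℓ : ∀ e ∈ G.edgeSet, 0 < ℓ e) (x y : V) : 0 ≤ pathDist G ℓ x y := by
  refine Real.iInf_nonneg fun w => List.sum_nonneg fun a ha => ?_
  obtain ⟨e, he, rfl⟩ := List.mem_map.1 ha
  exact (hℓ e (w.edges_subset_edgeSet he)).le

/-- (BALL) -/
theorem ballStmt : BallStmt := by
  classical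
  intro V _ G ℓ A _ H1 _ hℓ h1
  obtain ⟨μ, a1, a2, a3⟩ := h1
  obtain ⟨a⟩ := ‹Nonempty A›
  obtain ⟨⟨v0, _⟩⟩ := (a1 a).nonempty
  have hm : IsMinor H1 G := ⟨μ, a1, a2, a3⟩
  -- the candidates
  set Cand : Set ℝ := Set.range fun p : V × V => pathDist G ℓ p.1 p.2 with hCand
  have hfin : Cand.Finite := Set.finite_range _
  set Q : Set ℝ := {R | R ∈ Cand ∧ ∃ o, IsMinor H1 (G.induce (ball G ℓ o R))} with hQ
  have hQfin : Q.Finite := hfin.subset fun R hR => hR.1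
  have hQne : Q.Nonempty := by
    obtain ⟨M, hM, hMmax⟩ := Set.exists_max_image Cand id hfin ⟨_, ⟨(v0, v0), rfl⟩⟩
    exact ⟨M, hM, v0, minor_univ (fun v => hMmax _ ⟨(v0, v), rfl⟩) hm⟩
  obtain ⟨R, hR, hmin⟩ := Set.exists_min_image Q id hQfin hQne
  obtain ⟨⟨p, hp⟩, o, ho⟩ := hR
  have hR0 : 0 ≤ R := by
    have := pathDist_nonneg (G := G) hℓ p.1 p.2
    simp only at hp
    rwa [hp] at this
  refine ⟨o, R, hR0, ho, fun o' R' hlt hmi => ?_⟩
  -- the largest distance which is at most `R'`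
  have hne : (Set.range (fun v => pathDist G ℓ o' v) ∩ Set.Iic R').Nonempty := by
    obtain ⟨ν, b1, _, _⟩ := hmi
    obtain ⟨⟨x, _⟩⟩ := (b1 a).nonempty
    exact ⟨_, ⟨x.1, rfl⟩, x.2⟩
  obtain ⟨S, hS, hSmax⟩ := Set.exists_max_image
    (Set.range (fun v => pathDist G ℓ o' v) ∩ Set.Iic R') id
    ((Set.finite_range _).subset Set.inter_subset_left) hne
  obtain ⟨⟨v, hv⟩, hSR⟩ := hS
  have hS' : IsMinor H1 (G.induce (ball G ℓ o' S)) :=
    minor_mono (fun u hu => hSmax _ ⟨⟨u, rfl⟩, hu⟩) hmi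
  have := hmin S ⟨⟨(o', v), hv⟩, o', hS'⟩
  have h3 : S ≤ R' := hSR
  have h4 : R ≤ S := this
  linarith

/-- (SPL) -/
theorem splStmt : SplStmt := by
  intro V W₁ W₂ G H₁ H₂ A u h1 h2
  refine minor_sum ?_ h1 h2
  rw [Set.disjoint_left]
  rintro v hv ⟨p, hp⟩
  exact hp v p.end_mem_support hv

/-- (NOK) -/
theorem noKStmt : NoKStmt := fun V W _ G H h h' => h (H56.minor_trans (minor_top H le_rfl) h')

/-- `NoK` for every larger number -/
theorem noK_of {V W : Type} [Finite W] {G : SimpleGraph V} {H : SimpleGraph W} {r : ℕ}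
    (hr : Nat.card W ≤ r) (h : ¬ IsMinor H G) : Kr.NoK r G :=
  fun h' => h (H56.minor_trans (minor_top H hr) h')

end Vale.Agent.P235.H786
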