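import Vale.Agent.P235.H786.Ball

/-! (BIN) the metric of a ball of radius `R` embeds (helper786). -/

set_option linter.all false

namespace Vale.Agent.P235.H786

open SimpleGraph Vale.Agent.P235 Vale.Agent.P235.H134 Vale.Agent.P235.H56 Vale.Agent.P235.H606

theorem isL1_comap {V W : Type} {F : V → V → ℝ} (f : W → V) (h : IsL1 F) :
    IsL1 (fun x y => F (f x) (f y)) := by
  obtain ⟨ι, _, w, c, hw, hF⟩ := h
  exact ⟨ι, inferInstance, w, fun i x => c i (f x), hw, fun x y => hF _ _⟩

theorem isL1_two {V : Type} {F : V → V → ℝ} (h : IsL1 F) : IsL1 (fun x y => 2 * F x y) := by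
  obtain ⟨ι, _, w, c, hw, hF⟩ := h
  refine ⟨ι, inferInstance, fun i => 2 * w i, c, fun i => by have := hw i; linarith, fun x y => ?_⟩
  show 2 * F x y = _
  rw [hF, Finset.mul_sum]
  exact Finset.sum_congr rfl fun i _ => by ring

theorem binStmt : BinStmt := by
  rintro V _ G ℓ o R K hG hℓ ⟨F, hF, h1, h2⟩
  refine IsL1.embeds (F := fun x y : ball G ℓ o R => 2 * F x y)
    (isL1_comap (fun x : ball G ℓ o R => x.1) (isL1_two hF)) (fun x y => ?_) (fun x y => ?_)
  · have hx : pathDist G ℓ o x ≤ R := x.2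
    have hy : pathDist G ℓ o y ≤ R := y.2
    have h3 := h2 x.1 y.1
    have hd := pathDist_isMet hG hℓ
    have h4 : pathDist G ℓ x y ≤ pathDist G ℓ o x + pathDist G ℓ o y := by
      have := hd.tri x.1 o y.1
      rwa [hd.symm x.1 o] at this
    have h0 := pathDist_nonneg (G := G) hℓ x.1 y.1
    rcases le_total (pathDist G ℓ x y) R with h | h
    · rw [min_eq_left h] at h3
      linarith
    · rw [min_eq_right h] at h3
      linarith
  · have := h1 x.1 y.1
    show 2 * F x y ≤ 2 * K * pathDist G ℓ x y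
    linarith

end Vale.Agent.P235.H786
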