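import Vale.Agent.P235.H141.JDefs

/-! (NC) the grid with a vertex joined to its boundary is 3-connected (helper786). -/

set_option linter.all false

namespace Vale.Agent.P235.H786

open SimpleGraph Vale.Agent.P235.H134 Vale.Agent.P235.H56 Vale.Agent.P235.H141
open Vale.Agent.P235.H341W (capG)

theorem grid_adj {r : ℕ} (x y : Fin r × Fin r) : (grid r).Adj x y ↔
    ((x.1.val + 1 = y.1.val ∨ y.1.val + 1 = x.1.val) ∧ x.2 = y.2) ∨
    ((x.2.val + 1 = y.2.val ∨ y.2.val + 1 = x.2.val) ∧ x.1 = y.1) := by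
  unfold grid
  rw [boxProd_adj, pathGraph_adj, pathGraph_adj]

theorem const_fin {r : ℕ} (P : Fin r → Prop)
    (h : ∀ a b : Fin r, a.val + 1 = b.val → (P a ↔ P b)) : ∀ a b, P a ↔ P b := by
  have key : ∀ (n : ℕ) (hn : n < r), P ⟨n, hn⟩ ↔ P ⟨0, by omega⟩ := by
    intro n
    induction n with
    | zero => intro hn; exact Iff.rfl
    | succ n ih =>
      intro hn
      rw [← ih (by omega)]
      exact (h ⟨n, by omega⟩ ⟨n + 1, hn⟩ rfl).symm
  intro a b
  rw [show a = ⟨a.val, a.isLt⟩ from rfl, show b = ⟨b.val, b.isLt⟩ from rfl, key a.val a.isLt,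
    key b.val b.isLt]

theorem ray_lo {r : ℕ} (P : Fin r → Prop) (Q : Prop) (i : Fin r)
    (h0 : ∀ a : Fin r, a.val = 0 → a.val ≤ i.val → (P a ↔ Q))
    (h : ∀ a b : Fin r, a.val + 1 = b.val → b.val ≤ i.val → (P a ↔ P b)) : P i ↔ Q := by
  have key : ∀ (n : ℕ) (hn : n < r), n ≤ i.val → (P ⟨n, hn⟩ ↔ Q) := by
    intro n
    induction n with
    | zero => intro hn hi; exact h0 _ rfl hi
    | succ n ih =>
      intro hn hi
      rw [← ih (by omega) (by omega)]
      exact (h ⟨n, by omega⟩ ⟨n + 1, hn⟩ rfl hi).symm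
  exact key i.val i.isLt le_rfl

theorem ray_hi {r : ℕ} (P : Fin r → Prop) (Q : Prop) (i : Fin r)
    (h0 : ∀ a : Fin r, a.val + 1 = r → i.val ≤ a.val → (P a ↔ Q))
    (h : ∀ a b : Fin r, a.val + 1 = b.val → i.val ≤ a.val → (P a ↔ P b)) : P i ↔ Q := by
  have key : ∀ (n : ℕ) (hn : n < r), i.val + n + 1 ≤ r → (P ⟨r - 1 - n, by omega⟩ ↔ Q) := by
    intro n
    induction n with
    | zero =>
      intro hn hi
      exact h0 _ (show r - 1 - 0 + 1 = r by omega) (show i.val ≤ r - 1 - 0 by omega)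
    | succ n ih =>
      intro hn hi
      rw [← ih (by omega) (by omega)]
      exact h ⟨r - 1 - (n + 1), by omega⟩ ⟨r - 1 - n, by omega⟩
        (show r - 1 - (n + 1) + 1 = r - 1 - n by omega) (show i.val ≤ r - 1 - (n + 1) by omega)
  have hi := i.isLt
  have := key (r - 1 - i.val) (by omega) (by omega)
  rwa [show (⟨r - 1 - (r - 1 - i.val), by omega⟩ : Fin r) = i from Fin.ext (by
    show r - 1 - (r - 1 - i.val) = i.val
    omega)] at this

/-- (NC) -/
theorem nc : NCStmt := by
  intro r hr s t C hC hs ht hcl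
  have key : ∀ u v, (capG (grid r) (bd r)).Adj u v → u ≠ s → u ≠ t → v ≠ s → v ≠ t →
      (u ∈ C ↔ v ∈ C) := by
    intro u v h hus hut hvs hvt
    constructor
    · intro hu
      rcases hcl u hu v h with h | h | h
      · exact h
      · exact absurd h hvs
      · exact absurd h hvt
    · intro hv
      rcases hcl v hv u h.symm with h | h | h
      · exact h
      · exact absurd h hus
      · exact absurd h hut
  suffices h : ∃ p, ∀ y, y ≠ s → y ≠ t → (y ∈ C ↔ p ∈ C) by
    obtain ⟨p, hp⟩ := h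
    obtain ⟨c, hc⟩ := hC
    have hpC : p ∈ C := (hp c (fun h => hs (h ▸ hc)) (fun h => ht (h ▸ hc))).1 hc
    intro y
    by_cases h1 : y = s
    · exact Or.inr (Or.inl h1)
    by_cases h2 : y = t
    · exact Or.inr (Or.inr h2)
    exact Or.inl ((hp y h1 h2).2 hpC)
  by_cases hn : s = none ∨ t = none
  · -- the grid without one vertex
    obtain ⟨b, hbst, hb⟩ : ∃ b : Option (Fin r × Fin r), (b = s ∨ b = t) ∧
        ∀ x : Fin r × Fin r, some x ≠ b → some x ≠ s ∧ some x ≠ t := by
      rcases hn with rfl | rfl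
      · exact ⟨t, Or.inr rfl, fun x hx => ⟨by simp, hx⟩⟩
      · exact ⟨s, Or.inl rfl, fun x hx => ⟨hx, by simp⟩⟩
    have row : ∀ i : Fin r, (∀ j, some (i, j) ≠ b) → ∀ j j', (some (i, j) ∈ C ↔ some (i, j') ∈ C) := by
      intro i hi
      refine const_fin (fun j => some (i, j) ∈ C) (fun j j' hj => ?_)
      refine key _ _ ?_ (hb _ (hi j)).1 (hb _ (hi j)).2 (hb _ (hi j')).1 (hb _ (hi j')).2
      exact (grid_adj _ _).2 (Or.inr ⟨Or.inl hj, rfl⟩)
    have col : ∀ j : Fin r, (∀ i, some (i, j) ≠ b) → ∀ i i', (some (i, j) ∈ C ↔ some (i', j) ∈ C) := by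
      intro j hj
      refine const_fin (fun i => some (i, j) ∈ C) (fun i i' hi => ?_)
      refine key _ _ ?_ (hb _ (hj i)).1 (hb _ (hj i)).2 (hb _ (hj i')).1 (hb _ (hj i')).2
      exact (grid_adj _ _).2 (Or.inl ⟨Or.inl hi, rfl⟩)
    obtain ⟨i0, hi0⟩ : ∃ i0 : Fin r, ∀ j, some (i0, j) ≠ b := by
      rcases b with _ | ⟨a, c⟩
      · exact ⟨⟨0, by omega⟩, fun j => by simp⟩
      · by_cases ha : a.val = 0
        · refine ⟨⟨1, by omega⟩, fun j h => ?_⟩
          have := congrArg Fin.val (congrArg Prod.fst (Option.some.inj h))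
          simp only at this
          omega
        · refine ⟨⟨0, by omega⟩, fun j h => ?_⟩
          have := congrArg Fin.val (congrArg Prod.fst (Option.some.inj h))
          simp only at this
          omega
    obtain ⟨j0, hj0⟩ : ∃ j0 : Fin r, ∀ i, some (i, j0) ≠ b := by
      rcases b with _ | ⟨a, c⟩
      · exact ⟨⟨0, by omega⟩, fun j => by simp⟩
      · by_cases ha : c.val = 0
        · refine ⟨⟨1, by omega⟩, fun j h => ?_⟩
          have := congrArg Fin.val (congrArg Prod.snd (Option.some.inj h))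
          simp only at this
          omega
        · refine ⟨⟨0, by omega⟩, fun j h => ?_⟩
          have := congrArg Fin.val (congrArg Prod.snd (Option.some.inj h))
          simp only at this
          omega
    refine ⟨some (i0, j0), fun y hys hyt => ?_⟩
    rcases y with _ | ⟨i, j⟩
    · rcases hn with h | h
      · exact absurd h.symm hys
      · exact absurd h.symm hyt
    have hor : (∀ j', some (i, j') ≠ b) ∨ (∀ i', some (i', j) ≠ b) ∨ some (i, j) = b := by
      rcases b with _ | ⟨a, c⟩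
      · exact Or.inl fun j' => by simp
      · by_cases hia : i = a
        · by_cases hjc : j = c
          · exact Or.inr (Or.inr (by rw [hia, hjc]))
          · exact Or.inr (Or.inl fun i' h => hjc (congrArg Prod.snd (Option.some.inj h)))
        · exact Or.inl fun j' h => hia (congrArg Prod.fst (Option.some.inj h))
    rcases hor with h | h | h
    · exact (row i h j j0).trans (col j0 hj0 i i0)
    · exact (col j h i i0).trans (row i0 hi0 j j0)
    · rcases hbst with e | e
      · exact absurd (h.trans e) hys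
      · exact absurd (h.trans e) hyt
  · -- `none` is not removed: four rays
    push Not at hn
    obtain ⟨hsn, htn⟩ := hn
    refine ⟨none, fun y hys hyt => ?_⟩
    rcases y with _ | ⟨i, j⟩
    · exact Iff.rfl
    obtain ⟨⟨a, b⟩, rfl⟩ : ∃ x, s = some x := Option.ne_none_iff_exists'.1 hsn
    obtain ⟨⟨c, d⟩, rfl⟩ : ∃ x, t = some x := Option.ne_none_iff_exists'.1 htn
    have h1 : ¬ (i = a ∧ j = b) := fun h => hys (by rw [h.1, h.2])
    have h2 : ¬ (i = c ∧ j = d) := fun h => hyt (by rw [h.1, h.2])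
    have ne_of : ∀ i' j' a' b' : Fin r, ¬ (i' = a' ∧ j' = b') →
        (some (i', j') : Option (Fin r × Fin r)) ≠ some (a', b') := by
      intro i' j' a' b' h h'
      have := Option.some.inj h'
      exact h ⟨congrArg Prod.fst this, congrArg Prod.snd this⟩
    have hor : (∀ i' : Fin r, i'.val ≤ i.val → ¬ (i' = a ∧ j = b) ∧ ¬ (i' = c ∧ j = d)) ∨
        (∀ i' : Fin r, i.val ≤ i'.val → ¬ (i' = a ∧ j = b) ∧ ¬ (i' = c ∧ j = d)) ∨
        (∀ j' : Fin r, j'.val ≤ j.val → ¬ (i = a ∧ j' = b) ∧ ¬ (i = c ∧ j' = d)) ∨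
        (∀ j' : Fin r, j.val ≤ j'.val → ¬ (i = a ∧ j' = b) ∧ ¬ (i = c ∧ j' = d)) := by
      by_contra hcon
      push Not at hcon
      obtain ⟨⟨i1, a1, b1⟩, ⟨i2, a2, b2⟩, ⟨j3, a3, b3⟩, ⟨j4, a4, b4⟩⟩ := hcon
      simp only [Fin.ext_iff] at h1 h2 b1 b2 b3 b4
      omega
    have nn : ∀ x : Fin r × Fin r, some x ≠ (none : Option (Fin r × Fin r)) := fun x => by simp
    rcases hor with h | h | h | h
    · refine ray_lo (fun i' => some (i', j) ∈ C) _ i (fun i' e hi => ?_) (fun i' i'' e hi => ?_)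
      · have := h i' hi
        exact key _ _ (show (i', j) ∈ bd r from Or.inl e) (ne_of _ _ _ _ this.1)
          (ne_of _ _ _ _ this.2) (by simp) (by simp)
      · have q1 := h i' (by omega)
        have q2 := h i'' hi
        exact key _ _ ((grid_adj _ _).2 (Or.inl ⟨Or.inl e, rfl⟩)) (ne_of _ _ _ _ q1.1)
          (ne_of _ _ _ _ q1.2) (ne_of _ _ _ _ q2.1) (ne_of _ _ _ _ q2.2)
    · refine ray_hi (fun i' => some (i', j) ∈ C) _ i (fun i' e hi => ?_) (fun i' i'' e hi => ?_)
      · have := h i' hi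
        exact key _ _ (show (i', j) ∈ bd r from Or.inr (Or.inr (Or.inl e))) (ne_of _ _ _ _ this.1)
          (ne_of _ _ _ _ this.2) (by simp) (by simp)
      · have q1 := h i' hi
        have q2 := h i'' (by omega)
        exact key _ _ ((grid_adj _ _).2 (Or.inl ⟨Or.inl e, rfl⟩)) (ne_of _ _ _ _ q1.1)
          (ne_of _ _ _ _ q1.2) (ne_of _ _ _ _ q2.1) (ne_of _ _ _ _ q2.2)
    · refine ray_lo (fun j' => some (i, j') ∈ C) _ j (fun i' e hi => ?_) (fun i' i'' e hi => ?_)
      · have := h i' hi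
        exact key _ _ (show (i, i') ∈ bd r from Or.inr (Or.inl e)) (ne_of _ _ _ _ this.1)
          (ne_of _ _ _ _ this.2) (by simp) (by simp)
      · have q1 := h i' (by omega)
        have q2 := h i'' hi
        exact key _ _ ((grid_adj _ _).2 (Or.inr ⟨Or.inl e, rfl⟩)) (ne_of _ _ _ _ q1.1)
          (ne_of _ _ _ _ q1.2) (ne_of _ _ _ _ q2.1) (ne_of _ _ _ _ q2.2)
    · refine ray_hi (fun j' => some (i, j') ∈ C) _ j (fun i' e hi => ?_) (fun i' i'' e hi => ?_)
      · have := h i' hi
        exact key _ _ (show (i, i') ∈ bd r from Or.inr (Or.inr (Or.inr e))) (ne_of _ _ _ _ this.1)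
          (ne_of _ _ _ _ this.2) (by simp) (by simp)
      · have q1 := h i' hi
        have q2 := h i'' (by omega)
        exact key _ _ ((grid_adj _ _).2 (Or.inr ⟨Or.inl e, rfl⟩)) (ne_of _ _ _ _ q1.1)
          (ne_of _ _ _ _ q1.2) (ne_of _ _ _ _ q2.1) (ne_of _ _ _ _ q2.2)

end Vale.Agent.P235.H786
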