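import Vale.Agent.P235.H786.TSep

/-!
# Models whose branch sets cover the graph (helper786)
-/

set_option autoImplicit false

namespace Vale.Agent.P235.H786

open SimpleGraph Vale.Agent.P235 Vale.Agent.P235.H134 Vale.Agent.P235.H750

variable {V ι W : Type} {G : SimpleGraph V} {T : SimpleGraph ι} {B : ι → Set V}

/-- adding a neighbour to a connected set -/
theorem conn_insert {A : Set V} {u v : V} (hA : (G.induce A).Connected) (hu : u ∈ A)
    (huv : G.Adj u v) : (G.induce (insert v A)).Connected := by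
  have hle : A ≤ insert v A := Set.subset_insert v A
  have key : ∀ x (hx : x ∈ insert v A),
      (G.induce (insert v A)).Reachable ⟨u, hle hu⟩ ⟨x, hx⟩ := by
    intro x hx
    rcases hx with rfl | hx'
    · have : (G.induce (insert x A)).Adj ⟨u, hle hu⟩ ⟨x, Set.mem_insert x A⟩ := huv
      exact this.reachable
    · exact (hA.preconnected ⟨u, hu⟩ ⟨x, hx'⟩).map (SimpleGraph.induceHomOfLE G hle).toHom
  have : Nonempty (insert v A : Set V) := ⟨⟨u, hle hu⟩⟩
  exact ⟨fun a b => (key a.1 a.2).symm.trans (key b.1 b.2)⟩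

/-- **(EXT)** a model with connected branch sets in a connected graph extends to one which covers
the graph -/
theorem extend [Finite V] (hG : G.Connected) : ∀ (n : ℕ) (μ : W → Set V),
    ({v | ∀ a, v ∉ μ a} : Set V).ncard = n → Nonempty W → (∀ a, (G.induce (μ a)).Connected) →
    (∀ a b, a ≠ b → Disjoint (μ a) (μ b)) →
    ∃ μ' : W → Set V, (∀ a, μ a ⊆ μ' a) ∧ (∀ a, (G.induce (μ' a)).Connected) ∧
      (∀ a b, a ≠ b → Disjoint (μ' a) (μ' b)) ∧ ∀ v, ∃ a, v ∈ μ' a := by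
  classical
  intro n
  induction n using Nat.strong_induction_on with
  | _ n ih =>
    intro μ hn hW h1 h2
    by_cases hcov : ∀ v, ∃ a, v ∈ μ a
    · exact ⟨μ, fun a => subset_rfl, h1, h2, hcov⟩
    push Not at hcov
    obtain ⟨v0, hv0⟩ := hcov
    obtain ⟨a0⟩ := hW
    obtain ⟨⟨u0, hu0⟩⟩ := (h1 a0).nonempty
    -- an edge from a branch set to a free vertex
    have hedge : ∃ a u v, u ∈ μ a ∧ (∀ b, v ∉ μ b) ∧ G.Adj u v := by
      obtain ⟨w⟩ := hG.preconnected u0 v0
      have key : ∀ (x y : V) (w : G.Walk x y), (∃ a, x ∈ μ a) → (∀ b, y ∉ μ b) →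
          ∃ a u v, u ∈ μ a ∧ (∀ b, v ∉ μ b) ∧ G.Adj u v := by
        intro x y w
        induction w with
        | nil => exact fun ⟨a, ha⟩ h => absurd ha (h a)
        | @cons x y z hxy p ih =>
          rintro ⟨a, ha⟩ hz
          by_cases hy : ∃ b, y ∈ μ b
          · exact ih hy hz
          · push Not at hy
            exact ⟨a, x, y, ha, hy, hxy⟩
      exact key u0 v0 w ⟨a0, hu0⟩ hv0
    obtain ⟨a, u, v, hu, hv, huv⟩ := hedge
    set ν : W → Set V := Function.update μ a (insert v (μ a)) with hν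
    have hνa : ν a = insert v (μ a) := Function.update_self ..
    have hνb : ∀ b, b ≠ a → ν b = μ b := fun b hb => Function.update_of_ne hb ..
    have hsub : ∀ b, μ b ⊆ ν b := by
      intro b
      by_cases hb : b = a
      · subst hb
        rw [hνa]
        exact Set.subset_insert _ _
      · rw [hνb b hb]
    have hlt : ({x | ∀ b, x ∉ ν b} : Set V).ncard < n := by
      rw [← hn]
      refine Set.ncard_lt_ncard ⟨fun x hx b hxb => hx b (hsub b hxb), fun hle => ?_⟩
        (Set.toFinite _)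
      exact hle (show v ∈ {v | ∀ a, v ∉ μ a} from hv) a (hνa ▸ Set.mem_insert v (μ a))
    obtain ⟨μ', g1, g2, g3, g4⟩ := ih _ hlt ν rfl ⟨a⟩ (fun b => by
      by_cases hb : b = a
      · subst hb
        rw [hνa]
        exact conn_insert (h1 b) hu huv
      · rw [hνb b hb]
        exact h1 b) (fun b c hbc => by
      by_cases hb : b = a
      · subst hb
        rw [hνa, hνb c hbc.symm, Set.disjoint_left]
        rintro x (rfl | hx) hxc
        · exact hv c hxc
        · exact Set.disjoint_left.1 (h2 b c hbc) hx hxc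
      · rw [hνb b hb]
        by_cases hc : c = a
        · subst hc
          rw [hνa, Set.disjoint_left]
          rintro x hx (rfl | hxc)
          · exact hv b hx
          · exact Set.disjoint_left.1 (h2 b c hbc) hx hxc
        · rw [hνb c hc]
          exact h2 b c hbc)
    exact ⟨μ', fun b => (hsub b).trans (g1 b), g2, g3, g4⟩

/-- the minors of the torso of each bag `B t`, all of whose branch sets meet the boundary and whose
branch sets cover `B t`, have treewidth at most `k` -/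
def RootTw (G : SimpleGraph V) (T : SimpleGraph ι) (B : ι → Set V) (k : ℕ) : Prop :=
  ∀ (t : ι) (W : Type) [Finite W] (Q : SimpleGraph W) (μ : W → Set V),
    (∀ v, v ∈ B t ↔ ∃ a, v ∈ μ a) →
    (∀ a, ((tor G T B t).induce (μ a)).Connected ∧ (μ a ∩ bd T B t).Nonempty) →
    (∀ a b, a ≠ b → Disjoint (μ a) (μ b)) →
    (∀ a b, Q.Adj a b → ∃ x ∈ μ a, ∃ y ∈ μ b, (tor G T B t).Adj x y) → TreewidthLE Q k

/-- **(TW)** a minor of `G` with covering branch sets in no bag has treewidth at most `k` -/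
theorem TDec.tight_tw_cov (hConn : ConnStmt) (hGlue : GlueStmt) [Finite V] [Finite ι] [Finite W]
    (h : TDec G T B) {k : ℕ} (hR : RootTw G T B k) {Q : SimpleGraph W} {μ : W → Set V}
    (h0 : ∀ v, ∃ a, v ∈ μ a)
    (h1 : ∀ a, (G.induce (μ a)).Connected) (h2 : ∀ a b, a ≠ b → Disjoint (μ a) (μ b))
    (h3 : ∀ a b, Q.Adj a b → ∃ x ∈ μ a, ∃ y ∈ μ b, G.Adj x y)
    (h4 : ∀ a t, ¬ μ a ⊆ B t) : TreewidthLE Q k := by
  have hQ := h.model h1 h3
  refine hGlue W ι Q T (qb B μ) k hQ fun t => ?_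
  refine hR t (qb B μ t) _ (fun a => μ a.1 ∩ B t) (fun v => ⟨fun hv => ?_, ?_⟩)
    (fun a => ⟨?_, ?_⟩) ?_ ?_
  · obtain ⟨a, ha⟩ := h0 v
    exact ⟨⟨a, v, ha, hv⟩, ha, hv⟩
  · rintro ⟨a, ha⟩
    exact ha.2
  · exact hConn V ι G T B t (μ a.1) h (h1 a.1) a.2
  · obtain ⟨x, hx, hxb⟩ := h.tight (h1 a.1) (h4 a.1) t a.2
    exact ⟨x, ⟨hx, hxb.1⟩, hxb⟩
  · intro a b hab
    exact (h2 a.1 b.1 fun e => hab (Subtype.ext e)).mono Set.inter_subset_left
      Set.inter_subset_left
  · rintro ⟨a, ha⟩ ⟨b, hb⟩ hadj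
    obtain ⟨hne, -, -, hadj⟩ : (tor Q T (qb B μ) t).Adj a b := hadj
    have case2 : ∀ s, T.Adj t s → a ∈ qb B μ s → b ∈ qb B μ s →
        ∃ x ∈ μ a ∩ B t, ∃ y ∈ μ b ∩ B t, (tor G T B t).Adj x y := by
      intro s hts has hbs
      obtain ⟨x, hx, hxt, hxs⟩ := h.sep (h1 a) hts ha has
      obtain ⟨y, hy, hyt, hys⟩ := h.sep (h1 b) hts hb hbs
      refine ⟨x, ⟨hx, hxt⟩, y, ⟨hy, hyt⟩, ?_, hxt, hyt, Or.inr ⟨s, hts, hxs, hys⟩⟩
      rintro rfl
      exact Set.disjoint_left.1 (h2 a b hne) hx hy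
    rcases hadj with hadj | ⟨s, hts, has, hbs⟩
    · obtain ⟨x, hx, y, hy, hxy⟩ := h3 a b hadj
      obtain ⟨r, hxr, hyr⟩ := h.edge x y hxy
      by_cases hrt : t = r
      · subst hrt
        exact ⟨x, ⟨hx, hxr⟩, y, ⟨hy, hyr⟩, hxy.ne, hxr, hyr, Or.inl hxy⟩
      · obtain ⟨s, hts, has, hbs⟩ := step h.tree (hQ.conn a) (hQ.conn b) (t := t) (r := r) ha
          ⟨x, hx, hxr⟩ hb ⟨y, hy, hyr⟩ hrt
        exact case2 s hts has hbs
    · exact case2 s hts has hbs

/-- the same for all minors with branch sets in no bag -/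
theorem TDec.tight_tw' (hConn : ConnStmt) (hGlue : GlueStmt) [Finite V] [Finite ι] [Finite W]
    (hG : G.Connected) (h : TDec G T B) {k : ℕ} (hR : RootTw G T B k) {Q : SimpleGraph W}
    {μ : W → Set V} (hW : Nonempty W)
    (h1 : ∀ a, (G.induce (μ a)).Connected) (h2 : ∀ a b, a ≠ b → Disjoint (μ a) (μ b))
    (h3 : ∀ a b, Q.Adj a b → ∃ x ∈ μ a, ∃ y ∈ μ b, G.Adj x y)
    (h4 : ∀ a t, ¬ μ a ⊆ B t) : TreewidthLE Q k := by
  obtain ⟨μ', g1, g2, g3, g4⟩ := extend hG _ μ rfl hW h1 h2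
  refine h.tight_tw_cov hConn hGlue hR g4 g2 g3 (fun a b hab => ?_)
    fun a t ht => h4 a t ((g1 a).trans ht)
  obtain ⟨x, hx, y, hy, hxy⟩ := h3 a b hab
  exact ⟨x, g1 a hx, y, g1 b hy, hxy⟩

end Vale.Agent.P235.H786
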