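import Vale.Agent.P235.H427.BlkAll
import Vale.Agent.P235.H786.TExt

/-!
# Excluded minors with blocks `K_5` (helper786)

If `c₁` is bounded on the connected graphs without a `K_5` minor, then every finite graph all of
whose blocks are planar, `K_{3,3}` or `K_5` is a good excluded minor.
-/

set_option autoImplicit false

namespace Vale.Agent.P235.H786

open SimpleGraph hiding Free
open Vale.Agent.P235 Vale.Agent.P235.H134 Vale.Agent.P235.H606 Vale.Agent.P235.H750
open Vale.Agent.P235.H427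

/-- a good vertex transitive graph is rooted-good at every vertex -/
theorem rfree_of_transitive {W : Type} {H : SimpleGraph W}
    (hT : ∀ x y, ∃ e : H ≃g H, e x = y) {C : ℝ} (hF : Free H C) (h : W) : RFree H h := by
  intro r
  refine ⟨C, fun V _ G b hG _ hno => hF V G hG fun hm => hno ?_⟩
  obtain ⟨μ, m1, m2, m3⟩ := hm
  obtain ⟨μ', g1, g2, g3, g4⟩ := extend hG _ μ rfl ⟨h⟩ m1 m2
  obtain ⟨x, hx⟩ := g4 b
  obtain ⟨e, he⟩ := hT h x
  refine ⟨fun a => μ' (e a), fun a => g2 _, fun a c hac => g3 _ _ fun h => hac (e.injective h),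
    fun a c hac => ?_, ?_⟩
  · obtain ⟨u, hu, v, hv, huv⟩ := m3 (e a) (e c) (e.map_rel_iff.2 hac)
    exact ⟨u, g1 _ hu, v, g1 _ hv, huv⟩
  · show b ∈ μ' (e h)
    rw [he]
    exact hx

/-- complete graphs are vertex transitive -/
theorem top_transitive (n : ℕ) (x y : Fin n) :
    ∃ e : (⊤ : SimpleGraph (Fin n)) ≃g (⊤ : SimpleGraph (Fin n)), e x = y :=
  ⟨{ toEquiv := Equiv.swap x y, map_rel_iff' := by simp }, Equiv.swap_apply_left x y⟩

/-- **all roots**: blocks which are rooted-good at all vertices -/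
theorem blockSum_gen (hOne : OneStmt) {B : ∀ W : Type, SimpleGraph W → Prop}
    (hB : ∀ (W : Type) (H : SimpleGraph W), B W H → Finite W ∧ H.Connected ∧ ∀ h, RFree H h)
    {W : Type} {H : SimpleGraph W} (h : BlockSum B H) :
    Finite W ∧ H.Connected ∧ ∀ h, RFree H h := by
  induction h with
  | @base W H h => exact hB W H h
  | @glue W H S T v hST hST' hadj _ _ ihS ihT =>
    obtain ⟨hSf, hSc, hSr⟩ := ihS
    obtain ⟨hTf, hTc, hTr⟩ := ihT
    have hvS : v ∈ S := (hST'.symm ▸ Set.mem_singleton v : v ∈ S ∩ T).1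
    have hvT : v ∈ T := (hST'.symm ▸ Set.mem_singleton v : v ∈ S ∩ T).2
    have hW : Finite W := by
      rw [← Set.finite_univ_iff, ← hST]
      exact (Set.toFinite S).union (Set.toFinite T)
    refine ⟨hW, conn_glue hvS hvT hST hSc hTc, fun h => ?_⟩
    have hh : h ∈ S ∪ T := hST ▸ Set.mem_univ h
    rcases hh with hh | hh
    · exact hOne W H S T v hvS hvT hST hST' hadj hSc hTc (hTr _) ⟨h, hh⟩ (hSr _)
    · exact hOne W H T S v hvT hvS (by rw [Set.union_comm]; exact hST)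
        (by rw [Set.inter_comm]; exact hST') (fun a b ha hb hab => hadj b a hb ha hab.symm)
        hTc hSc (hSr _) ⟨h, hh⟩ (hTr _)

/-- planar, `K_{3,3}` or `K_5` -/
abbrev KBlock (W : Type) (H : SimpleGraph W) : Prop :=
  Finite W ∧ H.Connected ∧ (Planar H ∨ Nonempty (H ≃g completeBipartiteGraph (Fin 3) (Fin 3)) ∨
    Nonempty (H ≃g (⊤ : SimpleGraph (Fin 5))))

theorem kBlock_rfree {C : ℝ} (h5 : Free (⊤ : SimpleGraph (Fin 5)) C) (W : Type)
    (H : SimpleGraph W) (h : KBlock W H) : Finite W ∧ H.Connected ∧ ∀ h, RFree H h := by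
  obtain ⟨hW, hc, hpl | ⟨⟨e⟩⟩ | ⟨⟨e⟩⟩⟩ := h
  · refine ⟨hW, hc, fun h => ?_⟩
    obtain ⟨r, -, μ, m1, m2, m3⟩ := H205.planar W H hpl
    obtain ⟨x, hx⟩ := (m1 h).nonempty
    exact rfree_mono ⟨μ, m1, m2, m3, hx⟩ (H638.rGrid r x)
  · exact ⟨hW, hc, fun h => rfree_mono (rminor_iso e h) (H638.rK33 (e h))⟩
  · exact ⟨hW, hc, fun h => rfree_mono (rminor_iso e h)
      (rfree_of_transitive (top_transitive 5) h5 (e h))⟩

/-- **BLOCK with `K_5`**: from the theorem on graphs without a `K_5` minor -/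
theorem block5 {C : ℝ} (h5 : Free (⊤ : SimpleGraph (Fin 5)) C) (W : Type) [Finite W]
    (H : SimpleGraph W) (hH : ∀ c : H.ConnectedComponent, BlockSum KBlock (H.induce c.supp)) :
    ∃ C : ℝ, Free H C := by
  refine free_of_comps H12.compStmt fun c => ?_
  obtain ⟨hf, hc, hr⟩ := blockSum_gen oneStmt (kBlock_rfree h5) (hH c)
  obtain ⟨h⟩ := hc.nonempty
  exact free_of_rfree' (hr h)

end Vale.Agent.P235.H786
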