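import Vale.Agent.P235.H786.TopMinor
import Vale.Agent.P235.H786.BlkK5
import Vale.Agent.P235.ST.H945.TwSum
import Vale.Agent.P235.H536.Sharp

/-!
# Graphs without a `K_5` minor: gluing along edges, deleted vertices, edge sums (helper786)
-/

set_option autoImplicit false

namespace Vale.Agent.P235.H786

open SimpleGraph hiding Free
open Vale.Agent.P235 Vale.Agent.P235.H134 Vale.Agent.P235.H606 Vale.Agent.P235.H750
open Vale.Agent.P235.ST.H626 (GlueClosed GV GG)

variable {V VA VB : Type} {F : SimpleGraph V} {GA : SimpleGraph VA} {GB : SimpleGraph VB}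
  {iA : VA → V} {iB : VB → V} {a b : VA} {s t : VB}

/-- two graphs glued along an edge: a tree decomposition -/
theorem glued_tdec (h : ST.H421.Glued F GA GB iA iB a b s t) :
    TDec F (⊤ : SimpleGraph Bool) (fun z => if z then Set.range iA else Set.range iB) where
  tree := bool_tree
  cover := by
    intro v
    rcases h.cov v with ⟨x, hx⟩ | ⟨x, hx⟩
    · exact ⟨true, x, hx⟩
    · exact ⟨false, by simpa using ⟨x, hx⟩⟩
  edge := by
    intro u v huv
    rcases h.adj u v huv with ⟨x, y, -, hx, hy⟩ | ⟨x, y, -, hx, hy⟩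
    · exact ⟨true, ⟨x, hx⟩, ⟨y, hy⟩⟩
    · exact ⟨false, by simpa using ⟨x, hx⟩, by simpa using ⟨y, hy⟩⟩
  conn := fun v => bool_pre _

/-- a model inside the image of a graph -/
theorem pull_model {W : Type} {K : SimpleGraph W} {R : SimpleGraph V} (hi : Function.Injective iA)
    (hadj : ∀ x y, R.Adj (iA x) (iA y) → GA.Adj x y) {ν : W → Set V}
    (h0 : ∀ c, ν c ⊆ Set.range iA) (h1 : ∀ c, (R.induce (ν c)).Connected)
    (h2 : ∀ c d, c ≠ d → Disjoint (ν c) (ν d))
    (h3 : ∀ c d, K.Adj c d → ∃ x ∈ ν c, ∃ y ∈ ν d, R.Adj x y) : IsMinor K GA := by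
  refine ⟨fun c => iA ⁻¹' ν c, fun c => ?_, fun c d hcd => (h2 c d hcd).preimage iA,
    fun c d hcd => ?_⟩
  · have hs : ∀ z : ν c, ∃ x, iA x = z.1 := fun z => h0 c z.2
    choose f hf using hs
    let φ : R.induce (ν c) →g GA.induce (iA ⁻¹' ν c) :=
      { toFun := fun z => ⟨f z, by
          show iA (f z) ∈ ν c
          rw [hf z]
          exact z.2⟩
        map_rel' := fun {x y} hxy => by
          have h5 : R.Adj (iA (f x)) (iA (f y)) := by
            rw [hf x, hf y]
            exact hxy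
          exact hadj _ _ h5 }
    obtain ⟨z0⟩ := (h1 c).nonempty
    have : Nonempty (iA ⁻¹' ν c : Set VA) := ⟨φ z0⟩
    have key : ∀ x : (iA ⁻¹' ν c : Set VA), φ ⟨iA x.1, x.2⟩ = x := fun x =>
      Subtype.ext (hi (hf ⟨iA x.1, x.2⟩))
    refine ⟨fun x y => ?_⟩
    rw [← key x, ← key y]
    exact ((h1 c).preconnected _ _).map φ
  · obtain ⟨x, hx, y, hy, hxy⟩ := h3 c d hcd
    obtain ⟨x', rfl⟩ := h0 c hx
    obtain ⟨y', rfl⟩ := h0 d hy
    exact ⟨x', hx, y', hy, hadj _ _ hxy⟩

/-- the torso of the first graph -/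
theorem glued_tor (h : ST.H421.Glued F GA GB iA iB a b s t) {x y : VA}
    (hxy : (tor F (⊤ : SimpleGraph Bool)
      (fun z => if z then Set.range iA else Set.range iB) true).Adj (iA x) (iA y)) :
    GA.Adj x y := by
  have hne : x ≠ y := fun e => hxy.1 (congrArg iA e)
  have key : ∀ u v : VB, iA x = iB u → iA y = iB v → GA.Adj x y := by
    intro u v hu hv
    rcases h.inter x u hu with ⟨rfl, -⟩ | ⟨rfl, -⟩ <;> rcases h.inter y v hv with ⟨rfl, -⟩ | ⟨rfl, -⟩
    · exact absurd rfl hne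
    · exact h.stA
    · exact h.stA.symm
    · exact absurd rfl hne
  obtain ⟨-, -, -, hF | ⟨z, hz, hx, hy⟩⟩ := hxy
  · rcases h.adj _ _ hF with ⟨u, v, huv, hu, hv⟩ | ⟨u, v, -, hu, hv⟩
    · rw [← h.injA hu, ← h.injA hv]
      exact huv
    · exact key u v hu.symm hv.symm
  · have hz' : z = false := by
      cases z
      · rfl
      · exact absurd rfl hz.ne
    subst hz'
    simp only [Bool.false_eq_true, if_false] at hx hy
    obtain ⟨u, hu⟩ := hx
    obtain ⟨v, hv⟩ := hy
    exact key u v hu.symm hv.symm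

/-- the torso of the second graph -/
theorem glued_tor' (h : ST.H421.Glued F GA GB iA iB a b s t) {x y : VB}
    (hxy : (tor F (⊤ : SimpleGraph Bool)
      (fun z => if z then Set.range iA else Set.range iB) false).Adj (iB x) (iB y)) :
    GB.Adj x y := by
  have hne : x ≠ y := fun e => hxy.1 (congrArg iB e)
  have key : ∀ u v : VA, iA u = iB x → iA v = iB y → GB.Adj x y := by
    intro u v hu hv
    rcases h.inter u x hu with ⟨-, rfl⟩ | ⟨-, rfl⟩ <;> rcases h.inter v y hv with ⟨-, rfl⟩ | ⟨-, rfl⟩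
    · exact absurd rfl hne
    · exact h.stB
    · exact h.stB.symm
    · exact absurd rfl hne
  obtain ⟨-, -, -, hF | ⟨z, hz, hx, hy⟩⟩ := hxy
  · rcases h.adj _ _ hF with ⟨u, v, -, hu, hv⟩ | ⟨u, v, huv, hu, hv⟩
    · exact key u v hu hv
    · rw [← h.injB hu, ← h.injB hv]
      exact huv
  · have hz' : z = true := by
      cases z
      · exact absurd rfl hz.ne
      · rfl
    subst hz'
    simp only [if_true] at hx hy
    obtain ⟨u, hu⟩ := hx
    obtain ⟨v, hv⟩ := hy
    exact key u v hu hv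

/-- a complete minor of a graph glued along an edge is a minor of one of the two graphs -/
theorem top_glued [Finite V] {W : Type} [Finite W] (h : ST.H421.Glued F GA GB iA iB a b s t)
    (hm : IsMinor (⊤ : SimpleGraph W) F) :
    IsMinor (⊤ : SimpleGraph W) GA ∨ IsMinor (⊤ : SimpleGraph W) GB := by
  obtain ⟨μ, h1, h2, h3⟩ := hm
  obtain ⟨z, ν, n0, n1, n2, n3⟩ := (glued_tdec h).top_minor h1 h2 fun a b hab => h3 a b hab
  cases z
  · right
    exact pull_model h.injB (fun x y => glued_tor' h) (fun c => by simpa using n0 c) n1 n2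
      fun c d hcd => n3 c d hcd
  · left
    exact pull_model h.injA (fun x y => glued_tor h) (fun c => by simpa using n0 c) n1 n2
      fun c d hcd => n3 c d hcd

/-- connected graphs without a `K_n` minor -/
def NoTop (n : ℕ) (V : Type) (G : SimpleGraph V) : Prop :=
  G.Connected ∧ ¬ IsMinor (⊤ : SimpleGraph (Fin n)) G

theorem noTop_glue (n : ℕ) : GlueClosed (NoTop n) := by
  rintro V W _ _ G H a b s t hab hst ⟨hG, hG'⟩ ⟨hH, hH'⟩
  refine ⟨ST.H626.gg_connected hG hH hab hst, fun hm => ?_⟩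
  rcases top_glued (ST.H626.glued hab hst) hm with h | h
  · exact hG' h
  · exact hH' h

/-- **(K5-EI)** -/
theorem noTop_edgeIso {n : ℕ} {C : ℝ} (h5 : Free (⊤ : SimpleGraph (Fin n)) C) (V : Type)
    [Finite V] (G : SimpleGraph V) (hG : G.Connected)
    (hn : ¬ IsMinor (⊤ : SimpleGraph (Fin n)) G) : EdgeIso G (max C 1) :=
  ST.H626.edgeIso_of_glueClosed (noTop_glue n) (fun _ _ h => h.1) (le_max_right _ _)
    (fun V _ G h => (h5 V G h.1 h.2).mono (le_max_left _ _)) V G ⟨hG, hn⟩

/-- deleted vertices -/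
theorem noTop_apex {n : ℕ} {C : ℝ} (h5 : Free (⊤ : SimpleGraph (Fin n)) C) : ∃ A : ℝ, 1 ≤ A ∧
    ∀ (t : ℕ) (V : Type) [Finite V] (G : SimpleGraph V), G.Connected →
      (∃ S : Set V, S.ncard ≤ t ∧
        ∀ u ∉ S, ¬ IsMinor (⊤ : SimpleGraph (Fin n)) (G.induce (compSet G S u))) →
      DistortionLE G (A * Real.log (t + 2)) := by
  obtain ⟨A, hA1, hA'⟩ := apex_log'
  have hC1 : (1 : ℝ) ≤ max C 1 := le_max_right _ _
  refine ⟨A * (2 * max C 1 + 1), by nlinarith, fun t V _ G hG hS => ?_⟩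
  refine (H56.apex_of hA1 (K := max C 1) (by linarith)
    (P := fun V G => ¬ IsMinor (⊤ : SimpleGraph (Fin n)) G) hA'
    (fun V _ G hG h => (h5 V G hG h).mono (le_max_left _ _)) t V G hG hS).mono ?_
  have ht : (0 : ℝ) ≤ t := Nat.cast_nonneg t
  have hlog : (1 : ℝ) / 2 ≤ Real.log ((t : ℝ) + 2) := by
    have h1 : Real.log 2 ≤ Real.log ((t : ℝ) + 2) := Real.log_le_log (by norm_num) (by linarith)
    have h2 := Real.log_two_gt_d9
    linarith
  have h3 : max C 1 ≤ 2 * max C 1 * Real.log ((t : ℝ) + 2) := by nlinarith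
  nlinarith

/-- unlimited edge sums of graphs without a `K_n` minor, graphs of treewidth at most `k`, and the
graphs of `Piece3 w t` -/
theorem noTop_sums {n : ℕ} {C : ℝ} (h5 : Free (⊤ : SimpleGraph (Fin n)) C) (k w t : ℕ) :
    ∃ D : ℝ, ∀ (V : Type) [Finite V] (G : SimpleGraph V), G.Connected →
      EdgeSumOf (fun V G => NoTop n V G ∨ TreewidthLE G k ∨ Piece3 w t V G) G →
        EdgeIso G D ∧ DistortionLE G D := by
  obtain ⟨B, hB⟩ := edgeSum_piece3
  obtain ⟨D1, -, hD1⟩ := ST.H742.tw_edgeIso k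
  refine ⟨12000 * max (max C 1) (max D1 (B * (w + Real.log ((t : ℝ) + 2)))),
    fun V _ G hG hE => ?_⟩
  refine edgeSum_edgeIso _ ((le_max_right C 1).trans (le_max_left _ _)) (fun V _ G hG h => ?_)
    V G hG hE
  rcases h with h | h | h
  · exact ST.H626.EdgeIso.mono' (noTop_edgeIso h5 V G hG h.2) (le_max_left _ _)
  · exact ST.H626.EdgeIso.mono' (hD1 V G hG h) ((le_max_left _ _).trans (le_max_right _ _))
  · exact ST.H626.EdgeIso.mono' (hB w t V G hG (EdgeSumOf.base h)).1
      ((le_max_right _ _).trans (le_max_right _ _))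

end Vale.Agent.P235.H786
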