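import Vale.Agent.P235.H786.W3Root
import Vale.Agent.P235.K5.H803.AnyK
import Vale.Agent.P235.K5.H500.Edge
import Vale.Agent.P235.K5.SX.H452.All

/-!
# Sums over cliques of any size of planar graphs, graphs of treewidth at most `w`, and arbitrary bags
with bounded `c₁` and small boundaries (helper786)
-/

set_option autoImplicit false

namespace Vale.Agent.P235.H786

open SimpleGraph Vale.Agent.P235 Vale.Agent.P235.H134 Vale.Agent.P235.H56 Vale.Agent.P235.H750
open Vale.Agent.P235.K5 (Bef Adh Glued CliqueSum)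
open Vale.Agent.P235.K5.SX (Sum3)

/-- no `K_5` and no `K_{3,3}` minor (planar, by Kuratowski's theorem) -/
def NoKur (V : Type) (G : SimpleGraph V) : Prop :=
  ¬ IsMinor (⊤ : SimpleGraph (Fin 5)) G ∧ ¬ IsMinor K33 G

theorem noKur_minor (V W : Type) [Finite V] [Finite W] (G : SimpleGraph V) (H : SimpleGraph W)
    (hm : IsMinor H G) (h : NoKur V G) : NoKur W H :=
  ⟨fun h5 => h.1 (minor_trans h5 hm), fun h3 => h.2 (minor_trans h3 hm)⟩

/-- **sums over cliques of any size** -/
theorem anySum : AnySum NoKur := by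
  intro w
  obtain ⟨c, hc, hc1, hcap⟩ := K5.H500.pc_cap
  obtain ⟨K, -, hK⟩ := K5.SX.H452.sx (max w 3) c hc hc1
  refine ⟨K, fun V _ G H k n B hGH hG hB hp => hK V G H hGH hG ?_⟩
  obtain ⟨n', B', hB', hp'⟩ := K5.H803.anyK hB hp
  refine ⟨n', B', hB', fun s hs => ?_⟩
  rcases hp' s hs with ⟨h1, h2⟩ | h
  · exact Or.inr (hcap _ _ _ h1 h2)
  · exact Or.inl h

/-- **torso form**: tree decompositions, adhesions of any size, all torsos planar or of treewidth at
most `w` -/
theorem torsoForm (w : ℕ) : ∃ K : ℝ, ∀ (V ι : Type) [Finite V] [Finite ι] (G : SimpleGraph V)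
    (T : SimpleGraph ι) (B : ι → Set V), G.Connected → TDec G T B →
    (∀ t, NoKur (B t) ((tor G T B t).induce (B t)) ∨
      TreewidthLE ((tor G T B t).induce (B t)) w) → DistortionLE G K :=
  torso_of anySum w

/-- **(W3)** with arbitrary bags with bounded `c₁` and small boundaries -/
theorem w3 (hS : SelfStmt) (w : ℕ) (C : ℝ) : ∃ K : ℝ, ∀ (V ι : Type) [Finite V] [Finite ι]
    (G : SimpleGraph V) (T : SimpleGraph ι) (B : ι → Set V), G.Connected → TDec G T B →
    (∀ t, NoKur (B t) ((tor G T B t).induce (B t)) ∨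
      TreewidthLE ((tor G T B t).induce (B t)) w ∨
      ((∀ A, A ⊆ B t → (G.induce A).Connected → DistortionLE (G.induce A) C) ∧
        ((bd T B t).ncard ≤ w + 1 ∨ RootAt NoKur G T B w t))) →
    DistortionLE G K :=
  w3_root hS noKur_minor anySum w C

end Vale.Agent.P235.H786
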