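import Vale.Agent.P235.H750.VDefs
import Vale.Agent.P235.Comp.Defs

/-!
# Tree decompositions with bags of any size and small boundaries: definitions and blocks (helper786)

Statements only: each block proves `theorem … : XStmt`.
-/

set_option autoImplicit false

namespace Vale.Agent.P235.H786

open SimpleGraph Vale.Agent.P235 Vale.Agent.P235.H134 Vale.Agent.P235.H750

/-- `B t`, `t` in the tree `T`, is a tree decomposition of `G`, with bags of any size -/
structure TDec {V ι : Type} (G : SimpleGraph V) (T : SimpleGraph ι) (B : ι → Set V) : Prop where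
  tree : T.IsTree
  cover : ∀ v, ∃ t, v ∈ B t
  edge : ∀ u v, G.Adj u v → ∃ t, u ∈ B t ∧ v ∈ B t
  conn : ∀ v, (T.induce {t | v ∈ B t}).Preconnected

/-- the boundary of the bag `B t`: its vertices which lie in an adjacent bag -/
def bd {V ι : Type} (T : SimpleGraph ι) (B : ι → Set V) (t : ι) : Set V :=
  {v | v ∈ B t ∧ ∃ s, T.Adj t s ∧ v ∈ B s}

/-- the torso of the bag `B t`, a graph on all of `V` without edges outside `B t`: the edges of `G`
inside `B t`, and all edges inside `B t ∩ B s` for the neighbours `s` of `t` -/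
def tor {V ι : Type} (G : SimpleGraph V) (T : SimpleGraph ι) (B : ι → Set V) (t : ι) :
    SimpleGraph V where
  Adj x y := x ≠ y ∧ x ∈ B t ∧ y ∈ B t ∧ (G.Adj x y ∨ ∃ s, T.Adj t s ∧ x ∈ B s ∧ y ∈ B s)
  symm := ⟨fun _ _ ⟨h, hx, hy, h'⟩ =>
    ⟨h.symm, hy, hx, h'.imp (fun h => h.symm) fun ⟨s, h1, h2, h3⟩ => ⟨s, h1, h3, h2⟩⟩⟩
  loopless := ⟨fun _ h => h.1 rfl⟩

/-- (CONN) a connected set of `G` is connected inside a torso -/
def ConnStmt : Prop :=
  ∀ (V ι : Type) [Finite V] [Finite ι] (G : SimpleGraph V) (T : SimpleGraph ι) (B : ι → Set V)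
    (t : ι) (A : Set V), TDec G T B → (G.induce A).Connected → (A ∩ B t).Nonempty →
    ((tor G T B t).induce (A ∩ B t)).Connected

/-- (CLIQ) a clique lies in a bag -/
def CliqStmt : Prop :=
  ∀ (V ι : Type) [Finite V] [Finite ι] (G : SimpleGraph V) (T : SimpleGraph ι) (B : ι → Set V)
    (S : Set V), TDec G T B → (∀ x ∈ S, ∀ y ∈ S, x ≠ y → G.Adj x y) → ∃ t, S ⊆ B t

/-- (GLUE) the treewidth of a clique sum, from the treewidths of the torsos -/
def GlueStmt : Prop :=
  ∀ (V ι : Type) [Finite V] [Finite ι] (G : SimpleGraph V) (T : SimpleGraph ι) (B : ι → Set V)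
    (k : ℕ), TDec G T B → (∀ t, TreewidthLE ((tor G T B t).induce (B t)) k) → TreewidthLE G k

end Vale.Agent.P235.H786
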