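import Vale.Agent.P235.H786.TSep

/-!
# Enumerations of trees with connected initial segments (helper786)
-/

set_option autoImplicit false

namespace Vale.Agent.P235.H786

open SimpleGraph

variable {ι : Type} {T : SimpleGraph ι}

/-- **(NB)** two neighbours of a node in a subtree without the node are equal -/
theorem nb (hT : T.IsTree) {c s s' : ι} (h : T.Adj c s) (h' : T.Adj c s') {S : Set ι}
    (hS : (T.induce S).Preconnected) (hs : s ∈ S) (hs' : s' ∈ S) (hc : c ∉ S) : s = s' := by
  by_contra hne
  obtain ⟨p, hp⟩ := path_in hS hs hs'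
  let q : T.Path s s' := ⟨Walk.cons h.symm (Walk.cons h' Walk.nil), by
    simp [Walk.isPath_def, h.ne.symm, h'.ne, hne]⟩
  have e : p = q := (hT.isAcyclic.subsingleton_path s s').elim p q
  refine hc (hp c ?_)
  rw [e]
  show c ∈ (Walk.cons h.symm (Walk.cons h' Walk.nil)).support
  simp

/-- two subtrees with a common node -/
theorem pre_union {S S' : Set ι} (h : (T.induce S).Preconnected) (h' : (T.induce S').Preconnected)
    {c : ι} (hc : c ∈ S) (hc' : c ∈ S') : (T.induce (S ∪ S')).Preconnected := by
  have key : ∀ x (hx : x ∈ S ∪ S'), (T.induce (S ∪ S')).Reachable ⟨c, Or.inl hc⟩ ⟨x, hx⟩ := by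
    rintro x (hx | hx)
    · exact (h ⟨c, hc⟩ ⟨x, hx⟩).map (SimpleGraph.induceHomOfLE T Set.subset_union_left).toHom
    · exact (h' ⟨c, hc'⟩ ⟨x, hx⟩).map (SimpleGraph.induceHomOfLE T Set.subset_union_right).toHom
  exact fun x y => (key x.1 x.2).symm.trans (key y.1 y.2)

/-- a subtree and a neighbour -/
theorem pre_insert {S : Set ι} (h : (T.induce S).Preconnected) {c x : ι} (hc : c ∈ S)
    (hx : T.Adj c x) : (T.induce (insert x S)).Preconnected := by
  have h2 : (T.induce ({c, x} : Set ι)).Preconnected := by
    have hA : (T.induce ({c, x} : Set ι)).Adj ⟨c, by simp⟩ ⟨x, by simp⟩ := hx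
    have key : ∀ y (hy : y ∈ ({c, x} : Set ι)),
        (T.induce ({c, x} : Set ι)).Reachable ⟨c, by simp⟩ ⟨y, hy⟩ := by
      rintro y (rfl | rfl)
      · exact Reachable.refl _
      · exact hA.reachable
    exact fun y z => (key y.1 y.2).symm.trans (key z.1 z.2)
  have h3 := pre_union h h2 hc (Set.mem_insert c {x})
  have e : S ∪ {c, x} = insert x S := by
    ext y
    simp only [Set.mem_union, Set.mem_insert_iff, Set.mem_singleton_iff]
    constructor
    · rintro (h | rfl | rfl)
      · exact Or.inr h
      · exact Or.inr hc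
      · exact Or.inl rfl
    · rintro (rfl | h)
      · exact Or.inr (Or.inr rfl)
      · exact Or.inl h
  rwa [e] at h3

/-- **(ENUM)** the nodes of a finite tree, in an order with connected initial segments -/
theorem exists_enum [Finite ι] (hT : T.Connected) : ∃ f : ℕ → ι,
    (∀ i, i < Nat.card ι → ∀ j, j < Nat.card ι → f i = f j → i = j) ∧
    (∀ x, ∃ i, i < Nat.card ι ∧ f i = x) ∧
    ∀ i, i ≤ Nat.card ι → (T.induce (f '' Set.Iio i)).Preconnected := by
  classical
  have hne := hT.nonempty
  have key : ∀ m, m ≤ Nat.card ι → ∃ f : ℕ → ι,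
      (∀ i, i < m → ∀ j, j < m → f i = f j → i = j) ∧
      ∀ i, i ≤ m → (T.induce (f '' Set.Iio i)).Preconnected := by
    intro m
    induction m with
    | zero =>
      intro _
      obtain ⟨x⟩ := hne
      refine ⟨fun _ => x, fun i hi => absurd hi (Nat.not_lt_zero i), fun i hi => ?_⟩
      obtain rfl : i = 0 := Nat.le_zero.1 hi
      rintro ⟨y, hy⟩
      simp at hy
    | succ m ih =>
      intro hm
      obtain ⟨f, hf1, hf2⟩ := ih (by omega)
      -- a new node next to the old ones
      have hnew : ∃ x, x ∉ f '' Set.Iio m ∧ (0 < m → ∃ c ∈ f '' Set.Iio m, T.Adj c x) := by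
        have hcard : (f '' Set.Iio m).ncard ≤ m := by
          refine (Set.ncard_image_le (Set.finite_Iio m)).trans ?_
          rw [Set.ncard_eq_toFinset_card (Set.Iio m) (Set.finite_Iio m)]
          simp
        have hex : ∃ x, x ∉ f '' Set.Iio m := by
          by_contra h
          push Not at h
          have h1 : f '' Set.Iio m = Set.univ := Set.eq_univ_of_forall h
          rw [h1, Set.ncard_univ] at hcard
          omega
        obtain ⟨x, hx⟩ := hex
        rcases Nat.eq_zero_or_pos m with h0 | h0
        · exact ⟨x, hx, fun h => absurd h (by omega)⟩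
        · have hmem : f 0 ∈ f '' Set.Iio m := ⟨0, h0, rfl⟩
          obtain ⟨w⟩ := hT.preconnected (f 0) x
          have step' : ∀ (a b : ι) (w : T.Walk a b), a ∈ f '' Set.Iio m → b ∉ f '' Set.Iio m →
              ∃ x, x ∉ f '' Set.Iio m ∧ ∃ c ∈ f '' Set.Iio m, T.Adj c x := by
            intro a b w
            induction w with
            | nil => exact fun h h' => absurd h h'
            | @cons a b c hab p ih2 =>
              intro ha hc
              by_cases hb : b ∈ f '' Set.Iio m
              · exact ih2 hb hc
              · exact ⟨b, hb, a, ha, hab⟩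
          obtain ⟨y, hy, c, hc, hcy⟩ := step' _ _ w hmem hx
          exact ⟨y, hy, fun _ => ⟨c, hc, hcy⟩⟩
      obtain ⟨x, hx, hx'⟩ := hnew
      set g : ℕ → ι := fun i => if i < m then f i else x with hg
      have hgf : ∀ i, i < m → g i = f i := fun i hi => by simp [hg, hi]
      have hgm : g m = x := by simp [hg]
      have himg : ∀ i, i ≤ m → g '' Set.Iio i = f '' Set.Iio i := by
        intro i hi
        exact Set.image_congr fun j hj => hgf j (lt_of_lt_of_le hj hi)
      refine ⟨g, ?_, ?_⟩
      · intro i hi j hj hij
        rcases Nat.lt_or_ge i m with h1 | h1 <;> rcases Nat.lt_or_ge j m with h2 | h2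
        · exact hf1 i h1 j h2 (by rw [← hgf i h1, ← hgf j h2, hij])
        · exfalso
          obtain rfl : j = m := by omega
          rw [hgf i h1, hgm] at hij
          exact hx ⟨i, h1, hij⟩
        · exfalso
          obtain rfl : i = m := by omega
          rw [hgf j h2, hgm] at hij
          exact hx ⟨j, h2, hij.symm⟩
        · omega
      · intro i hi
        rcases Nat.lt_or_ge i (m + 1) with h1 | h1
        · rw [himg i (by omega)]
          exact hf2 i (by omega)
        · obtain rfl : i = m + 1 := by omega
          have e : g '' Set.Iio (m + 1) = insert x (f '' Set.Iio m) := by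
            rw [← himg m le_rfl, ← hgm, ← Set.image_insert_eq]
            congr 1
            ext j
            simp only [Set.mem_Iio, Set.mem_insert_iff]
            omega
          rw [e]
          rcases Nat.eq_zero_or_pos m with h0 | h0
          · subst h0
            have e0 : f '' Set.Iio 0 = ∅ := by
              ext j
              simp
            rw [e0]
            rintro ⟨y, hy⟩ ⟨z, hz⟩
            have hy' : y = x := by simpa using hy
            have hz' : z = x := by simpa using hz
            subst hy'
            subst hz'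
            exact Reachable.refl _
          · obtain ⟨c, hc, hcx⟩ := hx' h0
            exact pre_insert (hf2 m le_rfl) hc hcx
  obtain ⟨f, hf1, hf2⟩ := key _ le_rfl
  refine ⟨f, hf1, fun x => ?_, hf2⟩
  have hinj : Set.InjOn f (Set.Iio (Nat.card ι)) := fun i hi j hj hij => hf1 i hi j hj hij
  have h1 : (f '' Set.Iio (Nat.card ι)).ncard = Nat.card ι := by
    rw [hinj.ncard_image,
      Set.ncard_eq_toFinset_card (Set.Iio (Nat.card ι)) (Set.finite_Iio _)]
    simp
  have h2 : f '' Set.Iio (Nat.card ι) = Set.univ := by
    refine Set.eq_of_subset_of_ncard_le (Set.subset_univ _) ?_ (Set.toFinite _)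
    rw [h1, Set.ncard_univ]
  obtain ⟨i, hi, hix⟩ : x ∈ f '' Set.Iio (Nat.card ι) := h2 ▸ Set.mem_univ x
  exact ⟨i, hi, hix⟩

end Vale.Agent.P235.H786
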