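import Vale.Agent.P235.H786.TEnum
import Vale.Agent.P235.K5.H12.Int

/-!
# Tree decompositions as clique sums in the letters of `K5` (helper786)
-/

set_option autoImplicit false

namespace Vale.Agent.P235.H786

open SimpleGraph Vale.Agent.P235 Vale.Agent.P235.H134
open Vale.Agent.P235.K5 (Bef Adh Glued CliqueSum)

variable {V ι : Type} {G : SimpleGraph V} {T : SimpleGraph ι} {B : ι → Set V}

/-- `G` and all adhesion cliques -/
def full (G : SimpleGraph V) (T : SimpleGraph ι) (B : ι → Set V) : SimpleGraph V where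
  Adj x y := x ≠ y ∧ (G.Adj x y ∨ ∃ t s, T.Adj t s ∧ (x ∈ B t ∧ x ∈ B s) ∧ y ∈ B t ∧ y ∈ B s)
  symm := ⟨fun _ _ ⟨h, h'⟩ =>
    ⟨h.symm, h'.imp (fun h => h.symm) fun ⟨t, s, h1, h2, h3⟩ => ⟨t, s, h1, h3, h2⟩⟩⟩
  loopless := ⟨fun _ h => h.1 rfl⟩

theorem le_full : G ≤ full G T B := fun _ _ h => ⟨h.ne, Or.inl h⟩

/-- inside a bag: the torso -/
theorem TDec.full_tor (h : TDec G T B) (t : ι) :
    (full G T B).induce (B t) = (tor G T B t).induce (B t) := by
  ext ⟨x, hx⟩ ⟨y, hy⟩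
  constructor
  · rintro ⟨hne, hG | ⟨r, s, hrs, ⟨hxr, hxs⟩, hyr, hys⟩⟩
    · exact ⟨hne, hx, hy, Or.inl hG⟩
    · refine ⟨hne, hx, hy, Or.inr ?_⟩
      by_cases htr : t = r
      · subst htr
        exact ⟨s, hrs, hxs, hys⟩
      · obtain ⟨q, htq, hxq, hyq⟩ := step h.tree (h.conn x) (h.conn y) (t := t) (r := r) hx hxr
          hy hyr htr
        exact ⟨q, htq, hxq, hyq⟩
  · rintro ⟨hne, -, -, hG | ⟨s, hts, hxs, hys⟩⟩
    · exact ⟨hne, Or.inl hG⟩
    · exact ⟨hne, Or.inr ⟨t, s, hts, ⟨hx, hxs⟩, hy, hys⟩⟩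

/-- **(TD-GL)** a tree decomposition with adhesions of at most `k` vertices is a clique sum -/
theorem TDec.glued [Finite V] [Finite ι] (h : TDec G T B) {k : ℕ}
    (hk : ∀ t s, T.Adj t s → (B t ∩ B s).ncard ≤ k) : ∃ f : ℕ → ι,
    Glued k (full G T B) (Nat.card ι) (fun i => B (f i)) := by
  obtain ⟨f, hf1, hf2, hf3⟩ := exists_enum h.tree.connected
  -- the parent
  have par : ∀ i, i < Nat.card ι → 0 < i → ∃ j, j < i ∧ T.Adj (f i) (f j) ∧
      ∀ v, v ∈ B (f i) → v ∈ Bef (fun i => B (f i)) i → v ∈ B (f j) := by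
    intro i hi hi0
    have hnot : ∀ j, j < i → f i ≠ f j := fun j hj e => by
      have := hf1 i hi j (hj.trans hi) e
      omega
    -- one neighbour among the old nodes
    have hmem0 : f 0 ∈ f '' Set.Iio (i + 1) := ⟨0, by simp, rfl⟩
    have hmemi : f i ∈ f '' Set.Iio (i + 1) := ⟨i, by simp, rfl⟩
    obtain ⟨s, hs, ⟨j, hj, rfl⟩, -⟩ := step h.tree (hf3 (i + 1) hi) (hf3 (i + 1) hi) hmemi hmem0
      hmemi hmem0 (hnot 0 hi0)
    have hji : j < i := by
      have h1 : j < i + 1 := hj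
      rcases Nat.lt_or_ge j i with h2 | h2
      · exact h2
      · obtain rfl : j = i := by omega
        exact absurd rfl hs.ne
    refine ⟨j, hji, hs, fun v hv hvb => ?_⟩
    obtain ⟨l, hl, hvl⟩ := hvb
    have hml : f l ∈ f '' Set.Iio (i + 1) := ⟨l, by
      show l < i + 1
      omega, rfl⟩
    obtain ⟨s', hs', hvs', ⟨j', hj', rfl⟩⟩ := step h.tree (h.conn v) (hf3 (i + 1) hi) hv hvl
      hmemi hml (hnot l hl)
    have hj'i : j' < i := by
      have h1 : j' < i + 1 := hj'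
      rcases Nat.lt_or_ge j' i with h2 | h2
      · exact h2
      · obtain rfl : j' = i := by omega
        exact absurd rfl hs'.ne
    have e : f j = f j' := nb h.tree hs hs' (hf3 i hi.le) ⟨j, hji, rfl⟩ ⟨j', hj'i, rfl⟩
      (by
        rintro ⟨l', hl', e⟩
        exact hnot l' hl' e.symm)
    rw [e]
    exact hvs'
  have adh0 : Adh (fun i => B (f i)) 0 = ∅ := by
    ext v
    simp only [Set.mem_empty_iff_false, iff_false]
    rintro ⟨-, s, hs, -⟩
    omega
  refine ⟨f, ?_, ?_, ?_, ?_⟩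
  · intro v
    obtain ⟨t, ht⟩ := h.cover v
    obtain ⟨i, hi, rfl⟩ := hf2 t
    exact ⟨i, hi, ht⟩
  · intro t ht
    rcases Nat.eq_zero_or_pos t with h0 | h0
    · subst h0
      rw [adh0]
      simp
    · obtain ⟨j, -, hadj, hj⟩ := par t ht h0
      have hsub : Adh (fun i => B (f i)) t ⊆ B (f t) ∩ B (f j) :=
        fun v hv => ⟨hv.1, hj v hv.1 hv.2⟩
      exact (Set.ncard_le_ncard hsub (Set.toFinite _)).trans (hk _ _ hadj)
  · intro t ht u hu v hv huv
    rcases Nat.eq_zero_or_pos t with h0 | h0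
    · subst h0
      rw [adh0] at hu
      exact hu.elim
    · obtain ⟨j, -, hadj, hj⟩ := par t ht h0
      exact ⟨huv, Or.inr ⟨f t, f j, hadj, ⟨hu.1, hj u hu.1 hu.2⟩, hv.1, hj v hv.1 hv.2⟩⟩
  · intro t ht u v hu hu' hv hv' hadj
    -- a common bag
    obtain ⟨r, hur, hvr⟩ : ∃ r, u ∈ B r ∧ v ∈ B r := by
      obtain ⟨-, hG | ⟨r, s, -, ⟨h1, -⟩, h2, -⟩⟩ := hadj
      · exact h.edge u v hG
      · exact ⟨r, h1, h2⟩
    have h0 : 0 < t := by
      obtain ⟨s, hs, -⟩ := hv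
      omega
    obtain ⟨l, hl, hvl⟩ := hv
    -- the parent of `t`
    obtain ⟨j, hjt, hadj, -⟩ := par t ht h0
    have huS : ∀ x ∈ f '' Set.Iio t, u ∉ B x := by
      rintro x ⟨i, hi, rfl⟩ hux
      exact hu' ⟨i, hi, hux⟩
    have hjS : f j ∈ f '' Set.Iio t := ⟨j, hjt, rfl⟩
    have hlS : f l ∈ f '' Set.Iio t := ⟨l, hl, rfl⟩
    have hne : f j ≠ r := fun e => huS (f j) hjS (e ▸ hur)
    have p1 : (T.induce (insert (f j) {x | u ∈ B x})).Preconnected :=
      pre_insert (h.conn u) (c := f t) hu hadj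
    have p2 : (T.induce ({x | v ∈ B x} ∪ f '' Set.Iio t)).Preconnected :=
      pre_union (h.conn v) (hf3 t ht.le) (c := f l) hvl hlS
    obtain ⟨s, hs, hs1, hs2⟩ := step h.tree p1 p2 (t := f j) (r := r) (Set.mem_insert _ _)
      (Set.mem_insert_of_mem _ hur) (Or.inr hjS) (Or.inl hvr) hne
    have hus : u ∈ B s := by
      rcases hs1 with rfl | h1
      · exact absurd rfl hs.ne
      · exact h1
    have hvs : v ∈ B s := by
      rcases hs2 with h1 | h1
      · exact h1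
      · exact absurd hus (huS s h1)
    have e : f t = s := nb h.tree hadj.symm hs (h.conn u) hu hus (fun h1 => huS (f j) hjS h1)
    exact hv' (e ▸ hvs)

/-- **(TD-CS)** tree decompositions are clique sums of their torsos -/
theorem TDec.cliqueSum [Finite V] [Finite ι] (h : TDec G T B) {k : ℕ}
    (hk : ∀ t s, T.Adj t s → (B t ∩ B s).ncard ≤ k)
    {P : ∀ V : Type, SimpleGraph V → Set V → Prop}
    (hP : ∀ t R, P (B t) ((tor G T B t).induce (B t)) R) :
    G ≤ full G T B ∧ CliqueSum k P (full G T B) := by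
  obtain ⟨f, hf⟩ := h.glued hk
  exact ⟨le_full, Nat.card ι, fun i => B (f i), hf, fun t _ => by
    rw [h.full_tor]
    exact hP _ _⟩

end Vale.Agent.P235.H786
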