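import Vale.Agent.P235.H786.TSep

/-!
# Tree decompositions with bags of any size and small boundaries (helper786)
-/

set_option autoImplicit false

namespace Vale.Agent.P235.H786

open SimpleGraph Vale.Agent.P235 Vale.Agent.P235.H134 Vale.Agent.P235.H750

/-- the explicit bound for treewidth `k` -/
def TwE : Prop := ∀ (k : ℕ) (V : Type) [Finite V] (G : SimpleGraph V), G.Connected →
  TreewidthLE G k → DistortionLE G (2 ^ (600 * (k + 1) ^ 9 + 12 * 2 ^ k))

/-- **(W)** general form: the bound for the minors whose branch sets lie in no bag -/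
theorem w_gen (hN : NestStmt) : ∃ K : ℝ, 1 ≤ K ∧ ∀ (r : ℕ) (C C' : ℝ) (V ι : Type) [Finite V]
    [Finite ι] (G : SimpleGraph V) (T : SimpleGraph ι) (B : ι → Set V), 1 ≤ C → 1 ≤ C' →
    G.Connected → Kr.NoK r G → TDec G T B →
    (∀ t A, A ⊆ B t → (G.induce A).Connected → DistortionLE (G.induce A) C) →
    (∀ (W : Type) [Finite W] (Q : SimpleGraph W) (μ : W → Set V), Q.Connected →
      (∀ a, (G.induce (μ a)).Connected) → (∀ a b, a ≠ b → Disjoint (μ a) (μ b)) →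
      (∀ a b, Q.Adj a b → ∃ x ∈ μ a, ∃ y ∈ μ b, G.Adj x y) → (∀ a t, ¬ μ a ⊆ B t) →
      DistortionLE Q C') →
    DistortionLE G (K * ((r : ℝ) + 2) ^ 9 * (C + C')) := by
  obtain ⟨K, hK, hN⟩ := hN
  refine ⟨K, hK, fun r C C' V ι _ _ G T B hC hC' hG hr hT hb hq => ?_⟩
  refine hN r C C' V G (fun A => ∀ t, ¬ A ⊆ B t) hC hC' hG hr ?_ ?_ ?_
  · exact fun A A' hA h t ht => h t (hA.trans ht)
  · intro A hA hP
    push Not at hP
    obtain ⟨t, ht⟩ := hP
    exact hb t A ht hA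
  · intro W _ Q p hQ hfib hadj _
    refine hq W Q (fun a => {v | p v = a}) hQ (fun a => (hfib a).1) ?_ ?_ fun a => (hfib a).2
    · intro a b hab
      rw [Set.disjoint_left]
      intro v hv hv'
      exact hab ((show p v = a from hv).symm.trans (show p v = b from hv'))
    · intro a b hab
      obtain ⟨u, v, h, hu, hv⟩ := hadj a b hab
      exact ⟨u, hu, v, hv, h⟩

/-- **(W)** general form without an excluded minor -/
theorem w_gen' (hS : SelfStmt) (C : ℝ) : ∃ K : ℝ, ∀ (V ι : Type) [Finite V]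
    [Finite ι] (G : SimpleGraph V) (T : SimpleGraph ι) (B : ι → Set V),
    G.Connected → TDec G T B →
    (∀ t A, A ⊆ B t → (G.induce A).Connected → DistortionLE (G.induce A) C) →
    (∀ (W : Type) [Finite W] (Q : SimpleGraph W) (μ : W → Set V), Q.Connected →
      (∀ a, (G.induce (μ a)).Connected) → (∀ a b, a ≠ b → Disjoint (μ a) (μ b)) →
      (∀ a b, Q.Adj a b → ∃ x ∈ μ a, ∃ y ∈ μ b, G.Adj x y) → (∀ a t, ¬ μ a ⊆ B t) →
      DistortionLE Q C) →
    DistortionLE G K := by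
  obtain ⟨K, hK⟩ := hS C
  refine ⟨K, fun V ι _ _ G T B hG hT hb hq => ?_⟩
  by_contra hno
  obtain ⟨W, hW, Q, μ, h1, h2, h3, h4, h5⟩ := hK V G hG hno
  exact h2 (hq W Q μ h1 (fun a => (h3 a).1) h4 h5 fun a t hat => (h3 a).2 (hb t _ hat (h3 a).1))

/-- **(W1)** boundaries of at most `k + 1` vertices -/
theorem TDec.card_tw {V ι W : Type} [Finite V] [Finite ι] [Finite W] {G : SimpleGraph V}
    {T : SimpleGraph ι} {B : ι → Set V} (h : TDec G T B) {k : ℕ}
    (hk : ∀ t, (bd T B t).ncard ≤ k + 1) {Q : SimpleGraph W} {μ : W → Set V}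
    (h1 : ∀ a, (G.induce (μ a)).Connected) (h2 : ∀ a b, a ≠ b → Disjoint (μ a) (μ b))
    (h3 : ∀ a b, Q.Adj a b → ∃ x ∈ μ a, ∃ y ∈ μ b, G.Adj x y)
    (h4 : ∀ a t, ¬ μ a ⊆ B t) : TreewidthLE Q k :=
  (h.model h1 h3).tw fun t => (qb_card h2 fun a ha => h.tight (h1 a) (h4 a) t ha).trans (hk t)

theorem twE_one (k : ℕ) : (1 : ℝ) ≤ 2 ^ (600 * (k + 1) ^ 9 + 12 * 2 ^ k) :=
  one_le_pow₀ (by norm_num)

/-- **(W1')** no excluded minor -/
theorem w1' (hS : SelfStmt) (hE : TwE) (C : ℝ) (k : ℕ) : ∃ K : ℝ, ∀ (V ι : Type)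
    [Finite V] [Finite ι] (G : SimpleGraph V) (T : SimpleGraph ι) (B : ι → Set V),
    G.Connected → TDec G T B → (∀ t, (bd T B t).ncard ≤ k + 1) →
    (∀ t A, A ⊆ B t → (G.induce A).Connected → DistortionLE (G.induce A) C) →
    DistortionLE G K := by
  obtain ⟨K, h⟩ := w_gen' hS (max C (2 ^ (600 * (k + 1) ^ 9 + 12 * 2 ^ k)))
  refine ⟨K, fun V ι _ _ G T B hG hT hk hb => ?_⟩
  exact h V ι G T B hG hT (fun t A hA hc => (hb t A hA hc).mono (le_max_left _ _))
    fun W _ Q μ hQ h1 h2 h3 h4 => (hE k W Q hQ (hT.card_tw hk h1 h2 h3 h4)).mono (le_max_right _ _)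

end Vale.Agent.P235.H786
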