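import Vale.Agent.P235.H786.TDefs

/-!
# Quotients of tree decompositions (helper786)
-/

set_option autoImplicit false

namespace Vale.Agent.P235.H786

open SimpleGraph Vale.Agent.P235 Vale.Agent.P235.H134 Vale.Agent.P235.H750

variable {V ι W : Type} {G : SimpleGraph V} {T : SimpleGraph ι} {B : ι → Set V}

/-- a vertex in two bags lies in the boundary -/
theorem TDec.mem_bd (h : TDec G T B) {v : V} {t s : ι} (ht : v ∈ B t) (hs : v ∈ B s)
    (hne : t ≠ s) : v ∈ bd T B t := by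
  obtain ⟨w⟩ := h.conn v ⟨t, ht⟩ ⟨s, hs⟩
  cases w with
  | nil => exact absurd rfl hne
  | @cons _ x _ hx p => exact ⟨ht, x.1, hx, x.2⟩

/-- a connected set which meets a bag and not its boundary lies in the bag -/
theorem TDec.sub_bag (h : TDec G T B) {A : Set V} {t : ι} (hA : (G.induce A).Connected)
    (h1 : (A ∩ B t).Nonempty) (h2 : ¬ (A ∩ bd T B t).Nonempty) : A ⊆ B t := by
  obtain ⟨x, hxA, hxt⟩ := h1
  have key : ∀ (u v : A) (w : (G.induce A).Walk u v), u.1 ∈ B t → v.1 ∈ B t := by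
    intro u v w
    induction w with
    | nil => exact fun h => h
    | @cons a b c hab p ih =>
      intro ha
      obtain ⟨s, hs1, hs2⟩ := h.edge a.1 b.1 hab
      by_cases hst : t = s
      · exact ih (hst ▸ hs2)
      · exact absurd ⟨a.1, a.2, h.mem_bd ha hs1 hst⟩ h2
  intro y hy
  obtain ⟨w⟩ := hA.preconnected ⟨x, hxA⟩ ⟨y, hy⟩
  exact key _ _ w hxt

/-- the bags of a model -/
def qb (B : ι → Set V) (μ : W → Set V) (t : ι) : Set W := {a | (μ a ∩ B t).Nonempty}

/-- a minor inherits the tree decomposition -/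
theorem TDec.model (h : TDec G T B) {Q : SimpleGraph W} {μ : W → Set V}
    (h1 : ∀ a, (G.induce (μ a)).Connected)
    (h3 : ∀ a b, Q.Adj a b → ∃ x ∈ μ a, ∃ y ∈ μ b, G.Adj x y) : TDec Q T (qb B μ) where
  tree := h.tree
  cover := by
    intro a
    obtain ⟨⟨x, hx⟩⟩ := (h1 a).nonempty
    obtain ⟨t, ht⟩ := h.cover x
    exact ⟨t, x, hx, ht⟩
  edge := by
    intro a b hab
    obtain ⟨x, hx, y, hy, hxy⟩ := h3 a b hab
    obtain ⟨t, htx, hty⟩ := h.edge x y hxy
    exact ⟨t, ⟨x, hx, htx⟩, ⟨y, hy, hty⟩⟩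
  conn := by
    intro a
    have mono : ∀ (x : V) (hx : x ∈ μ a) (t s : ι) (ht : x ∈ B t) (hs : x ∈ B s),
        (T.induce {t | a ∈ qb B μ t}).Reachable ⟨t, x, hx, ht⟩ ⟨s, x, hx, hs⟩ := by
      intro x hx t s ht hs
      have hle : {t | x ∈ B t} ≤ {t | a ∈ qb B μ t} := fun t ht => ⟨x, hx, ht⟩
      exact (h.conn x ⟨t, ht⟩ ⟨s, hs⟩).map (SimpleGraph.induceHomOfLE T hle).toHom
    have key : ∀ (u v : μ a) (w : (G.induce (μ a)).Walk u v), ∀ (t s : ι) (ht : u.1 ∈ B t)
        (hs : v.1 ∈ B s),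
        (T.induce {t | a ∈ qb B μ t}).Reachable ⟨t, u.1, u.2, ht⟩ ⟨s, v.1, v.2, hs⟩ := by
      intro u v w
      induction w with
      | @nil b => exact fun t s ht hs => mono b.1 b.2 t s ht hs
      | @cons b c d hbc p ih =>
        intro t s ht hs
        obtain ⟨r, hr1, hr2⟩ := h.edge b.1 c.1 hbc
        exact (mono b.1 b.2 t r ht hr1).trans (ih r s hr2 hs)
    rintro ⟨t, x, hx, ht⟩ ⟨s, y, hy, hs⟩
    obtain ⟨w⟩ := (h1 a).preconnected ⟨x, hx⟩ ⟨y, hy⟩
    exact key _ _ w t s ht hs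

/-- treewidth from a decomposition with small bags -/
theorem TDec.tw [Finite W] [Finite ι] {Q : SimpleGraph W} {B' : ι → Set W} {k : ℕ}
    (h : TDec Q T B') (hk : ∀ t, (B' t).ncard ≤ k + 1) : TreewidthLE Q k := by
  classical
  refine ⟨ι, inferInstance, T, fun t => (Set.toFinite (B' t)).toFinset, h.tree, ?_, ?_, ?_, ?_⟩
  · intro v
    obtain ⟨t, ht⟩ := h.cover v
    exact ⟨t, (Set.Finite.mem_toFinset _).2 ht⟩
  · intro u v huv
    obtain ⟨t, ht, ht'⟩ := h.edge u v huv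
    exact ⟨t, (Set.Finite.mem_toFinset _).2 ht, (Set.Finite.mem_toFinset _).2 ht'⟩
  · intro v
    have e : {t | v ∈ (Set.toFinite (B' t)).toFinset} = {t | v ∈ B' t} := by
      ext t
      simp
    rw [e]
    exact h.conn v
  · intro t
    rw [← Set.ncard_eq_toFinset_card]
    exact hk t

/-- the bags of a model all of whose sets meet the boundaries of the bags they meet are small -/
theorem qb_card [Finite V] {μ : W → Set V} {t : ι}
    (h2 : ∀ a b, a ≠ b → Disjoint (μ a) (μ b))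
    (h4 : ∀ a, (μ a ∩ B t).Nonempty → (μ a ∩ bd T B t).Nonempty) :
    (qb B μ t).ncard ≤ (bd T B t).ncard := by
  classical
  have h5 : ∀ a ∈ qb B μ t, ∃ x, x ∈ μ a ∧ x ∈ bd T B t := fun a ha => h4 a ha
  rcases (qb B μ t).eq_empty_or_nonempty with h0 | ⟨a0, x0, -⟩
  · rw [h0]
    simp
  have : Nonempty V := ⟨x0⟩
  choose! f hf1 hf2 using h5
  refine Set.ncard_le_ncard_of_injOn f (fun a ha => hf2 a ha) ?_ (Set.toFinite _)
  intro a ha b hb hab
  by_contra hne
  exact Set.disjoint_left.1 (h2 a b hne) (hf1 a ha) (hab ▸ hf1 b hb)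

/-- a model whose sets lie in no bag is tight -/
theorem TDec.tight (h : TDec G T B) {A : Set V} (h1 : (G.induce A).Connected)
    (h2 : ∀ t, ¬ A ⊆ B t) (t : ι) (h3 : (A ∩ B t).Nonempty) : (A ∩ bd T B t).Nonempty := by
  by_contra h4
  exact h2 t (h.sub_bag h1 h3 h4)

end Vale.Agent.P235.H786
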