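import Vale.Agent.P235.H786.TQuo

/-!
# Subtrees and separations (helper786)
-/

set_option autoImplicit false

namespace Vale.Agent.P235.H786

open SimpleGraph Vale.Agent.P235 Vale.Agent.P235.H134 Vale.Agent.P235.H750

variable {V ι W : Type} {G : SimpleGraph V} {T : SimpleGraph ι} {B : ι → Set V}

/-- a path inside a connected set of nodes -/
theorem path_in {S : Set ι} (h : (T.induce S).Preconnected) {t r : ι} (ht : t ∈ S) (hr : r ∈ S) :
    ∃ p : T.Path t r, ∀ x ∈ p.1.support, x ∈ S := by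
  classical
  obtain ⟨w⟩ := h ⟨t, ht⟩ ⟨r, hr⟩
  refine ⟨w.toPath.mapEmbedding (Embedding.induce S), fun x hx => ?_⟩
  have hx' : x ∈ (w.toPath.1.map (Embedding.induce (G := T) S).toHom).support := hx
  rw [Walk.support_map] at hx'
  obtain ⟨y, -, rfl⟩ := List.mem_map.1 hx'
  exact y.2

/-- **(STEP)** two subtrees with two common nodes have a common neighbour of the first node -/
theorem step (hT : T.IsTree) {S S' : Set ι} (h : (T.induce S).Preconnected)
    (h' : (T.induce S').Preconnected) {t r : ι} (ht : t ∈ S) (hr : r ∈ S) (ht' : t ∈ S')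
    (hr' : r ∈ S') (hne : t ≠ r) : ∃ s, T.Adj t s ∧ s ∈ S ∧ s ∈ S' := by
  obtain ⟨p, hp⟩ := path_in h ht hr
  obtain ⟨p', hp'⟩ := path_in h' ht' hr'
  have e : p = p' := (hT.isAcyclic.subsingleton_path t r).elim p p'
  subst e
  obtain ⟨w, hw⟩ := p
  cases w with
  | nil => exact absurd rfl hne
  | @cons _ s _ hts q =>
    have hs : s ∈ (Walk.cons hts q).support := by
      rw [Walk.support_cons]
      exact List.mem_cons_of_mem _ q.start_mem_support
    exact ⟨s, hts, hp s hs, hp' s hs⟩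

/-- **(SEP)** a connected set which meets two adjacent bags meets their intersection -/
theorem TDec.sep (h : TDec G T B) {A : Set V} (hA : (G.induce A).Connected) {t s : ι}
    (hts : T.Adj t s) (h1 : (A ∩ B t).Nonempty) (h2 : (A ∩ B s).Nonempty) :
    ∃ x ∈ A, x ∈ B t ∧ x ∈ B s := by
  by_contra hno
  push Not at hno
  have hb : ¬ (T.deleteEdges {s(t, s)}).Reachable t s :=
    isBridge_iff.1 ((isAcyclic_iff_forall_adj_isBridge.1 h.tree.isAcyclic) hts)
  have one : ∀ x ∈ A, ∀ r r' : ι, x ∈ B r → x ∈ B r' →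
      (T.deleteEdges {s(t, s)}).Reachable r r' := by
    intro x hx r r' hr hr'
    let φ : T.induce {r | x ∈ B r} →g T.deleteEdges {s(t, s)} :=
      { toFun := fun y => y.1
        map_rel' := fun {y z} hyz => by
          rw [deleteEdges_adj]
          refine ⟨hyz, fun he => ?_⟩
          rw [Set.mem_singleton_iff, Sym2.eq_iff] at he
          rcases he with ⟨e1, e2⟩ | ⟨e1, e2⟩
          · exact hno x hx (e1 ▸ y.2) (e2 ▸ z.2)
          · exact hno x hx (e2 ▸ z.2) (e1 ▸ y.2) }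
    exact (h.conn x ⟨r, hr⟩ ⟨r', hr'⟩).map φ
  have key : ∀ (u v : A) (w : (G.induce A).Walk u v), ∀ (r r' : ι), u.1 ∈ B r → v.1 ∈ B r' →
      (T.deleteEdges {s(t, s)}).Reachable r r' := by
    intro u v w
    induction w with
    | @nil b => exact fun r r' => one b.1 b.2 r r'
    | @cons b c d hbc p ih =>
      intro r r' hr hr'
      obtain ⟨q, hq1, hq2⟩ := h.edge b.1 c.1 hbc
      exact (one b.1 b.2 r q hr hq1).trans (ih q r' hq2 hr')
  obtain ⟨x, hx, hxt⟩ := h1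
  obtain ⟨y, hy, hys⟩ := h2
  obtain ⟨w⟩ := hA.preconnected ⟨x, hx⟩ ⟨y, hy⟩
  exact hb (key _ _ w t s hxt hys)

/-- all minors of the torsos with branch sets meeting the boundary have treewidth at most `k` -/
def RTw (G : SimpleGraph V) (T : SimpleGraph ι) (B : ι → Set V) (k : ℕ) : Prop :=
  ∀ (t : ι) (W : Type) [Finite W] (Q : SimpleGraph W) (μ : W → Set V),
    (∀ a, μ a ⊆ B t ∧ ((tor G T B t).induce (μ a)).Connected ∧ (μ a ∩ bd T B t).Nonempty) →
    (∀ a b, a ≠ b → Disjoint (μ a) (μ b)) →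
    (∀ a b, Q.Adj a b → ∃ x ∈ μ a, ∃ y ∈ μ b, (tor G T B t).Adj x y) → TreewidthLE Q k

/-- **(TW)** a minor of `G` with branch sets in no bag has treewidth at most `k` -/
theorem TDec.tight_tw (hConn : ConnStmt) (hGlue : GlueStmt) [Finite V] [Finite ι] [Finite W]
    (h : TDec G T B) {k : ℕ} (hR : RTw G T B k) {Q : SimpleGraph W} {μ : W → Set V}
    (h1 : ∀ a, (G.induce (μ a)).Connected) (h2 : ∀ a b, a ≠ b → Disjoint (μ a) (μ b))
    (h3 : ∀ a b, Q.Adj a b → ∃ x ∈ μ a, ∃ y ∈ μ b, G.Adj x y)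
    (h4 : ∀ a t, ¬ μ a ⊆ B t) : TreewidthLE Q k := by
  have hQ := h.model h1 h3
  refine hGlue W ι Q T (qb B μ) k hQ fun t => ?_
  refine hR t (qb B μ t) _ (fun a => μ a.1 ∩ B t) (fun a => ⟨Set.inter_subset_right, ?_, ?_⟩) ?_ ?_
  · exact hConn V ι G T B t (μ a.1) h (h1 a.1) a.2
  · obtain ⟨x, hx, hxb⟩ := h.tight (h1 a.1) (h4 a.1) t a.2
    exact ⟨x, ⟨hx, hxb.1⟩, hxb⟩
  · intro a b hab
    exact (h2 a.1 b.1 fun e => hab (Subtype.ext e)).mono Set.inter_subset_left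
      Set.inter_subset_left
  · rintro ⟨a, ha⟩ ⟨b, hb⟩ hadj
    obtain ⟨hne, -, -, hadj⟩ : (tor Q T (qb B μ) t).Adj a b := hadj
    have case2 : ∀ s, T.Adj t s → a ∈ qb B μ s → b ∈ qb B μ s →
        ∃ x ∈ μ a ∩ B t, ∃ y ∈ μ b ∩ B t, (tor G T B t).Adj x y := by
      intro s hts has hbs
      obtain ⟨x, hx, hxt, hxs⟩ := h.sep (h1 a) hts ha has
      obtain ⟨y, hy, hyt, hys⟩ := h.sep (h1 b) hts hb hbs
      refine ⟨x, ⟨hx, hxt⟩, y, ⟨hy, hyt⟩, ?_, hxt, hyt, Or.inr ⟨s, hts, hxs, hys⟩⟩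
      rintro rfl
      exact Set.disjoint_left.1 (h2 a b hne) hx hy
    rcases hadj with hadj | ⟨s, hts, has, hbs⟩
    · obtain ⟨x, hx, y, hy, hxy⟩ := h3 a b hadj
      obtain ⟨r, hxr, hyr⟩ := h.edge x y hxy
      by_cases hrt : t = r
      · subst hrt
        exact ⟨x, ⟨hx, hxr⟩, y, ⟨hy, hyr⟩, hxy.ne, hxr, hyr, Or.inl hxy⟩
      · obtain ⟨s, hts, has, hbs⟩ := step h.tree (hQ.conn a) (hQ.conn b) (t := t) (r := r) ha
          ⟨x, hx, hxr⟩ hb ⟨y, hy, hyr⟩ hrt
        exact case2 s hts has hbs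
    · exact case2 s hts has hbs

end Vale.Agent.P235.H786
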