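import Vale.Agent.P235.H786.TSep
import Vale.Agent.P235.H535.Conn
import Vale.Agent.P235.H749.Cliq

/-!
# Complete minors and torsos (helper786)
-/

set_option autoImplicit false

namespace Vale.Agent.P235.H786

open SimpleGraph Vale.Agent.P235 Vale.Agent.P235.H134 Vale.Agent.P235.H750

variable {V ι W : Type} {G : SimpleGraph V} {T : SimpleGraph ι} {B : ι → Set V}

/-- adjacent branch sets which meet a bag are adjacent in its torso -/
theorem TDec.tor_adj (h : TDec G T B) {Q : SimpleGraph W} {μ : W → Set V}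
    (h1 : ∀ a, (G.induce (μ a)).Connected) (h2 : ∀ a b, a ≠ b → Disjoint (μ a) (μ b))
    (h3 : ∀ a b, Q.Adj a b → ∃ x ∈ μ a, ∃ y ∈ μ b, G.Adj x y) {t : ι} {a b : W}
    (hab : Q.Adj a b) (ha : (μ a ∩ B t).Nonempty) (hb : (μ b ∩ B t).Nonempty) :
    ∃ x ∈ μ a ∩ B t, ∃ y ∈ μ b ∩ B t, (tor G T B t).Adj x y := by
  have hQ := h.model h1 h3
  obtain ⟨x, hx, y, hy, hxy⟩ := h3 a b hab
  obtain ⟨r, hxr, hyr⟩ := h.edge x y hxy
  by_cases hrt : t = r
  · subst hrt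
    exact ⟨x, ⟨hx, hxr⟩, y, ⟨hy, hyr⟩, hxy.ne, hxr, hyr, Or.inl hxy⟩
  · obtain ⟨s, hts, has, hbs⟩ := step h.tree (hQ.conn a) (hQ.conn b) (t := t) (r := r) ha
      ⟨x, hx, hxr⟩ hb ⟨y, hy, hyr⟩ hrt
    obtain ⟨x, hx, hxt, hxs⟩ := h.sep (h1 a) hts ha has
    obtain ⟨y, hy, hyt, hys⟩ := h.sep (h1 b) hts hb hbs
    refine ⟨x, ⟨hx, hxt⟩, y, ⟨hy, hyt⟩, ?_, hxt, hyt, Or.inr ⟨s, hts, hxs, hys⟩⟩
    rintro rfl
    exact Set.disjoint_left.1 (h2 a b hab.ne) hx hy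

/-- **a complete minor is a minor of a torso** -/
theorem TDec.top_minor [Finite V] [Finite ι] [Finite W] (h : TDec G T B) {μ : W → Set V}
    (h1 : ∀ a, (G.induce (μ a)).Connected) (h2 : ∀ a b, a ≠ b → Disjoint (μ a) (μ b))
    (h3 : ∀ a b, a ≠ b → ∃ x ∈ μ a, ∃ y ∈ μ b, G.Adj x y) :
    ∃ (t : ι) (ν : W → Set V), (∀ a, ν a ⊆ B t) ∧
      (∀ a, ((tor G T B t).induce (ν a)).Connected) ∧
      (∀ a b, a ≠ b → Disjoint (ν a) (ν b)) ∧
      ∀ a b, a ≠ b → ∃ x ∈ ν a, ∃ y ∈ ν b, (tor G T B t).Adj x y := by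
  have hQ := h.model (Q := (⊤ : SimpleGraph W)) h1 fun a b hab => h3 a b hab
  obtain ⟨t, ht⟩ := H749.cliq W ι ⊤ T (qb B μ) Set.univ hQ fun x _ y _ hxy => hxy
  have ht' : ∀ a, (μ a ∩ B t).Nonempty := fun a => ht (Set.mem_univ a)
  refine ⟨t, fun a => μ a ∩ B t, fun a => Set.inter_subset_right,
    fun a => H535.conn V ι G T B t (μ a) h (h1 a) (ht' a), fun a b hab =>
    (h2 a b hab).mono Set.inter_subset_left Set.inter_subset_left, fun a b hab => ?_⟩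
  exact h.tor_adj (Q := (⊤ : SimpleGraph W)) h1 h2 (fun a b hab => h3 a b hab)
    (show (⊤ : SimpleGraph W).Adj a b from hab) (ht' a) (ht' b)

/-- the tree with two nodes -/
theorem bool_tree : (⊤ : SimpleGraph Bool).IsTree :=
  ⟨connected_top, IsAcyclic.of_card_le_two (by simp)⟩

theorem bool_pre (S : Set Bool) : ((⊤ : SimpleGraph Bool).induce S).Preconnected := by
  intro x y
  by_cases hxy : x = y
  · rw [hxy]
  · exact Adj.reachable (show (⊤ : SimpleGraph Bool).Adj x.1 y.1 from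
      fun e => hxy (Subtype.ext e))

end Vale.Agent.P235.H786
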