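import Vale.Agent.P235.H786.TMain
import Vale.Agent.P235.H786.TExt
import Vale.Agent.P235.R2.H483U.Final

/-!
# Tree decompositions with bags of any size and small boundaries: final forms (helper786)
-/

set_option autoImplicit false

namespace Vale.Agent.P235.H786

open SimpleGraph Vale.Agent.P235 Vale.Agent.P235.H134 Vale.Agent.P235.H750

theorem twE : TwE := fun k V _ G hG hk => H483U.tw_explicit k V G hG hk

/-- **(W1)** boundaries with at most `k + 1` vertices, no `K_r` minor -/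
theorem w1 (hN : NestStmt) : ∃ K : ℝ, 1 ≤ K ∧ ∀ (r k : ℕ) (C : ℝ) (V ι : Type)
    [Finite V] [Finite ι] (G : SimpleGraph V) (T : SimpleGraph ι) (B : ι → Set V), 1 ≤ C →
    G.Connected → ¬ IsMinor (⊤ : SimpleGraph (Fin r)) G → TDec G T B →
    (∀ t, (bd T B t).ncard ≤ k + 1) →
    (∀ t A, A ⊆ B t → (G.induce A).Connected → DistortionLE (G.induce A) C) →
    DistortionLE G (K * ((r : ℝ) + 2) ^ 9 * (C + 2 ^ (600 * (k + 1) ^ 9 + 12 * 2 ^ k))) := by
  obtain ⟨K, hK, h⟩ := w_gen hN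
  refine ⟨K, hK, fun r k C V ι _ _ G T B hC hG hr hT hk hb => ?_⟩
  exact h r C _ V ι G T B hC (twE_one k) hG hr hT hb fun W _ Q μ hQ h1 h2 h3 h4 =>
    twE k W Q hQ (hT.card_tw hk h1 h2 h3 h4)

/-- **(W1)** no excluded minor -/
theorem w1s (hS : SelfStmt) (C : ℝ) (k : ℕ) : ∃ K : ℝ, ∀ (V ι : Type)
    [Finite V] [Finite ι] (G : SimpleGraph V) (T : SimpleGraph ι) (B : ι → Set V),
    G.Connected → TDec G T B → (∀ t, (bd T B t).ncard ≤ k + 1) →
    (∀ t A, A ⊆ B t → (G.induce A).Connected → DistortionLE (G.induce A) C) →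
    DistortionLE G K := w1' hS twE C k

/-- **(W2)** rooted minors of the torsos with treewidth at most `k`, no `K_r` minor -/
theorem w2 (hConn : ConnStmt) (hGlue : GlueStmt) (hN : NestStmt) :
    ∃ K : ℝ, 1 ≤ K ∧ ∀ (r k : ℕ) (C : ℝ) (V ι : Type)
    [Finite V] [Finite ι] (G : SimpleGraph V) (T : SimpleGraph ι) (B : ι → Set V), 1 ≤ C →
    G.Connected → ¬ IsMinor (⊤ : SimpleGraph (Fin r)) G → TDec G T B → RootTw G T B k →
    (∀ t A, A ⊆ B t → (G.induce A).Connected → DistortionLE (G.induce A) C) →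
    DistortionLE G (K * ((r : ℝ) + 2) ^ 9 * (C + 2 ^ (600 * (k + 1) ^ 9 + 12 * 2 ^ k))) := by
  obtain ⟨K, hK, h⟩ := w_gen hN
  refine ⟨K, hK, fun r k C V ι _ _ G T B hC hG hr hT hk hb => ?_⟩
  exact h r C _ V ι G T B hC (twE_one k) hG hr hT hb fun W _ Q μ hQ h1 h2 h3 h4 =>
    twE k W Q hQ (hT.tight_tw' hConn hGlue hG hk hQ.nonempty h1 h2 h3 h4)

/-- **(W2)** no excluded minor -/
theorem w2s (hConn : ConnStmt) (hGlue : GlueStmt) (hS : SelfStmt) (C : ℝ) (k : ℕ) :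
    ∃ K : ℝ, ∀ (V ι : Type)
    [Finite V] [Finite ι] (G : SimpleGraph V) (T : SimpleGraph ι) (B : ι → Set V),
    G.Connected → TDec G T B → RootTw G T B k →
    (∀ t A, A ⊆ B t → (G.induce A).Connected → DistortionLE (G.induce A) C) →
    DistortionLE G K := by
  obtain ⟨K, h⟩ := w_gen' hS (max C (2 ^ (600 * (k + 1) ^ 9 + 12 * 2 ^ k)))
  refine ⟨K, fun V ι _ _ G T B hG hT hk hb => ?_⟩
  exact h V ι G T B hG hT (fun t A hA hc => (hb t A hA hc).mono (le_max_left _ _))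
    fun W _ Q μ hQ h1 h2 h3 h4 =>
      (twE k W Q hQ (hT.tight_tw' hConn hGlue hG hk hQ.nonempty h1 h2 h3 h4)).mono
        (le_max_right _ _)

end Vale.Agent.P235.H786
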