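import Vale.Agent.P235.H786.TopMinor
import Vale.Agent.P235.H786.TMain

/-!
# Theorem W on top of a theorem on clique sums (helper786)

Bags of a given kind (any minor closed class of torsos, or torsos of treewidth at most `w`) and
arbitrary bags with bounded `c₁` and small boundaries.
-/

set_option autoImplicit false

namespace Vale.Agent.P235.H786

open SimpleGraph Vale.Agent.P235 Vale.Agent.P235.H134 Vale.Agent.P235.H750

variable {V ι W : Type} {G : SimpleGraph V} {T : SimpleGraph ι} {B : ι → Set V}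

/-- connected sets of a torso, inside the bag -/
theorem tor_conn_sub [Finite V] [Finite ι] (h : TDec G T B) {A : Set V} {t : ι}
    (hA : (G.induce A).Connected) (hne : (A ∩ B t).Nonempty) :
    (((tor G T B t).induce (B t)).induce {x : B t | x.1 ∈ A}).Connected := by
  have h1 := H535.conn V ι G T B t A h hA hne
  have e : Subtype.val '' {x : B t | x.1 ∈ A} = A ∩ B t := by
    ext x
    constructor
    · rintro ⟨y, hy, rfl⟩
      exact ⟨hy, y.2⟩
    · rintro ⟨hx, hxt⟩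
      exact ⟨⟨x, hxt⟩, hx, rfl⟩
  let φ : ((tor G T B t).induce (B t)).induce {x : B t | x.1 ∈ A} ≃g
      (tor G T B t).induce (Subtype.val '' {x : B t | x.1 ∈ A}) :=
    { toEquiv := Equiv.Set.image Subtype.val _ Subtype.val_injective
      map_rel_iff' := Iff.rfl }
  rw [φ.connected_iff, e]
  exact h1

/-- the torsos of a minor are minors of the torsos -/
theorem TDec.torso_minor [Finite V] [Finite ι] (h : TDec G T B) {Q : SimpleGraph W}
    {μ : W → Set V} (h1 : ∀ a, (G.induce (μ a)).Connected)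
    (h2 : ∀ a b, a ≠ b → Disjoint (μ a) (μ b))
    (h3 : ∀ a b, Q.Adj a b → ∃ x ∈ μ a, ∃ y ∈ μ b, G.Adj x y) (t : ι) :
    IsMinor ((tor Q T (qb B μ) t).induce (qb B μ t)) ((tor G T B t).induce (B t)) := by
  refine ⟨fun a => {x : B t | x.1 ∈ μ a.1}, fun a => tor_conn_sub h (h1 a.1) a.2,
    fun a b hab => ?_, ?_⟩
  · rw [Set.disjoint_left]
    intro x hx hx'
    exact Set.disjoint_left.1 (h2 a.1 b.1 fun e => hab (Subtype.ext e)) hx hx'
  · rintro ⟨a, ha⟩ ⟨b, hb⟩ hadj
    obtain ⟨hne, -, -, hadj⟩ : (tor Q T (qb B μ) t).Adj a b := hadj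
    rcases hadj with hadj | ⟨s, hts, has, hbs⟩
    · obtain ⟨x, ⟨hx, hxt⟩, y, ⟨hy, hyt⟩, hxy⟩ := h.tor_adj h1 h2 h3 hadj ha hb
      exact ⟨⟨x, hxt⟩, hx, ⟨y, hyt⟩, hy, hxy⟩
    · obtain ⟨x, hx, hxt, hxs⟩ := h.sep (h1 a) hts ha has
      obtain ⟨y, hy, hyt, hys⟩ := h.sep (h1 b) hts hb hbs
      refine ⟨⟨x, hxt⟩, hx, ⟨y, hyt⟩, hy, ?_, hxt, hyt, Or.inr ⟨s, hts, hxs, hys⟩⟩
      rintro rfl
      exact Set.disjoint_left.1 (h2 a b hne) hx hy

/-- the adhesions of a minor -/
theorem TDec.adh_card [Finite V] (h : TDec G T B) {μ : W → Set V}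
    (h1 : ∀ a, (G.induce (μ a)).Connected) (h2 : ∀ a b, a ≠ b → Disjoint (μ a) (μ b)) {t s : ι}
    (hts : T.Adj t s) : (qb B μ t ∩ qb B μ s).ncard ≤ (B t ∩ B s).ncard := by
  classical
  have h5 : ∀ a ∈ qb B μ t ∩ qb B μ s, ∃ x, x ∈ μ a ∧ x ∈ B t ∩ B s := by
    intro a ha
    obtain ⟨x, hx, hxt, hxs⟩ := h.sep (h1 a) hts ha.1 ha.2
    exact ⟨x, hx, hxt, hxs⟩
  rcases (qb B μ t ∩ qb B μ s).eq_empty_or_nonempty with h0 | ⟨a0, ⟨x0, -⟩, -⟩
  · rw [h0]
    simp
  have : Nonempty V := ⟨x0⟩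
  choose! f hf1 hf2 using h5
  refine Set.ncard_le_ncard_of_injOn f (fun a ha => hf2 a ha) ?_ (Set.toFinite _)
  intro a ha b hb hab
  by_contra hne
  exact Set.disjoint_left.1 (h2 a b hne) (hf1 a ha) (hab ▸ hf1 b hb)

/-- few vertices: small treewidth -/
theorem tw_small' [Finite W] (Q : SimpleGraph W) {k : ℕ} (h : Nat.card W ≤ k + 1) :
    TreewidthLE Q k := by
  classical
  have := Fintype.ofFinite W
  refine ⟨Unit, inferInstance, ⊥, fun _ => Finset.univ, ?_, fun v => ⟨(), Finset.mem_univ v⟩,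
    fun u v _ => ⟨(), Finset.mem_univ u, Finset.mem_univ v⟩, fun v => ?_, fun _ => ?_⟩
  · refine ⟨⟨fun x y => ?_⟩, isAcyclic_bot⟩
    rw [Subsingleton.elim x y]
  · intro x y
    rw [Subsingleton.elim x y]
  · rwa [Finset.card_univ, ← Nat.card_eq_fintype_card]

theorem tw_mono {Q : SimpleGraph W} {k l : ℕ} (h : TreewidthLE Q k) (hkl : k ≤ l) :
    TreewidthLE Q l := by
  obtain ⟨κ, hκ, S, C, h1, h2, h3, h4, h5⟩ := h
  exact ⟨κ, hκ, S, C, h1, h2, h3, h4, fun t => (h5 t).trans (by omega)⟩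

/-- minors have smaller treewidth -/
theorem tw_minor [Finite V] [Finite W] {Q : SimpleGraph W} {k : ℕ} (h : TreewidthLE G k)
    (hm : IsMinor Q G) : TreewidthLE Q k := by
  obtain ⟨κ, hκ, S, C, h1, h2, h3, h4, h5⟩ := h
  obtain ⟨μ, m1, m2, m3⟩ := hm
  have hT : TDec G S (fun t => (C t : Set V)) :=
    ⟨h1, h2, h3, h4⟩
  refine (hT.model m1 m3).tw fun t => ?_
  have h5' : (C t : Set V).ncard ≤ k + 1 := by
    rw [Set.ncard_coe_finset]
    exact h5 t
  refine le_trans ?_ h5'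
  classical
  have h6 : ∀ a ∈ qb (fun t => (C t : Set V)) μ t, ∃ x, x ∈ μ a ∧ x ∈ (C t : Set V) :=
    fun a ha => ha
  rcases (qb (fun t => (C t : Set V)) μ t).eq_empty_or_nonempty with h0 | ⟨a0, x0, -⟩
  · rw [h0]
    simp
  have : Nonempty V := ⟨x0⟩
  choose! f hf1 hf2 using h6
  refine Set.ncard_le_ncard_of_injOn f (fun a ha => hf2 a ha) ?_ (Set.toFinite _)
  intro a ha b hb hab
  by_contra hne
  exact Set.disjoint_left.1 (m2 a b hne) (hf1 a ha) (hab ▸ hf1 b hb)

/-- **(W3)** from a theorem on tree decompositions with adhesions of at most `q` vertices and torsos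
in a minor closed class `PP` or of bounded treewidth: bags with bounded `c₁` and small boundaries may
be mixed in -/
theorem w3_of (hS : SelfStmt) {PP : ∀ V : Type, SimpleGraph V → Prop} {q w k : ℕ}
    (hmin : ∀ (V W : Type) [Finite V] [Finite W] (G : SimpleGraph V) (H : SimpleGraph W),
      IsMinor H G → PP V G → PP W H)
    (hSum : ∃ K : ℝ, ∀ (V ι : Type) [Finite V] [Finite ι] (G : SimpleGraph V) (T : SimpleGraph ι)
      (B : ι → Set V), G.Connected → TDec G T B →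
      (∀ t s, T.Adj t s → (B t ∩ B s).ncard ≤ q) →
      (∀ t, PP (B t) ((tor G T B t).induce (B t)) ∨
        TreewidthLE ((tor G T B t).induce (B t)) (max w k)) → DistortionLE G K) (C : ℝ) :
    ∃ K : ℝ, ∀ (V ι : Type) [Finite V] [Finite ι] (G : SimpleGraph V) (T : SimpleGraph ι)
      (B : ι → Set V), G.Connected → TDec G T B →
      (∀ t s, T.Adj t s → (B t ∩ B s).ncard ≤ q) →
      (∀ t, PP (B t) ((tor G T B t).induce (B t)) ∨
        TreewidthLE ((tor G T B t).induce (B t)) w ∨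
        ((bd T B t).ncard ≤ k + 1 ∧
          ∀ A, A ⊆ B t → (G.induce A).Connected → DistortionLE (G.induce A) C)) →
      DistortionLE G K := by
  obtain ⟨K', hK'⟩ := hSum
  obtain ⟨K, hK⟩ := hS (max C K')
  refine ⟨K, fun V ι _ _ G T B hG hT hq hP => ?_⟩
  by_contra hno
  obtain ⟨W, hW, Q, μ, h1, h2, h3, h4, h5⟩ := hK V G hG hno
  have hc : ∀ a, (G.induce (μ a)).Connected := fun a => (h3 a).1
  refine h2 ((hK' W ι Q T (qb B μ) h1 (hT.model hc h5) (fun t s hts =>
    (hT.adh_card hc h4 hts).trans (hq t s hts)) fun t => ?_).mono (le_max_right _ _))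
  have hm := hT.torso_minor hc h4 h5 t
  rcases hP t with h | h | ⟨hk, hb⟩
  · exact Or.inl (hmin _ _ _ _ hm h)
  · exact Or.inr (tw_mono (tw_minor h hm) (le_max_left _ _))
  · refine Or.inr (tw_mono (tw_small' _ ?_) (le_max_right _ _))
    refine le_trans ?_ hk
    refine qb_card h4 fun a ha => ?_
    by_contra h6
    exact (h3 a).2 ((hb _ (hT.sub_bag (hc a) ha h6) (hc a)).mono (le_max_left _ _))

end Vale.Agent.P235.H786
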