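import Vale.Agent.P235.H786.W3
import Vale.Agent.P235.H786.TGlue

/-!
# Torso form of a theorem on clique sums, with arbitrary bags with small boundaries (helper786)
-/

set_option autoImplicit false

namespace Vale.Agent.P235.H786

open SimpleGraph Vale.Agent.P235 Vale.Agent.P235.H134 Vale.Agent.P235.H750
open Vale.Agent.P235.K5 (Bef Adh Glued CliqueSum)

/-- `c₁` is bounded on the sums over cliques, of any size, of graphs in `PP` and graphs of treewidth
at most `w` -/
def AnySum (PP : ∀ V : Type, SimpleGraph V → Prop) : Prop :=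
  ∀ w : ℕ, ∃ K : ℝ, ∀ (V : Type) [Finite V] (G H : SimpleGraph V) (k n : ℕ) (B : ℕ → Set V),
    G ≤ H → G.Connected → Glued k H n B →
    (∀ t < n, PP (B t) (H.induce (B t)) ∨ TreewidthLE (H.induce (B t)) w) → DistortionLE G K

/-- **torso form** -/
theorem torso_of {PP : ∀ V : Type, SimpleGraph V → Prop} (hL : AnySum PP) (w : ℕ) :
    ∃ K : ℝ, ∀ (V ι : Type) [Finite V] [Finite ι] (G : SimpleGraph V) (T : SimpleGraph ι)
      (B : ι → Set V), G.Connected → TDec G T B →
      (∀ t, PP (B t) ((tor G T B t).induce (B t)) ∨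
        TreewidthLE ((tor G T B t).induce (B t)) w) → DistortionLE G K := by
  obtain ⟨K, hK⟩ := hL w
  refine ⟨K, fun V ι _ _ G T B hG hT hP => ?_⟩
  obtain ⟨f, hf⟩ := hT.glued (k := Nat.card V) fun t s _ => by
    rw [← Set.ncard_univ]
    exact Set.ncard_le_ncard (Set.subset_univ _) (Set.toFinite _)
  refine hK V G (full G T B) _ _ _ le_full hG hf fun t _ => ?_
  rw [hT.full_tor]
  exact hP _

/-- **(W3)** adhesions of any size; arbitrary bags with bounded `c₁` and small boundaries -/
theorem w3_any (hS : SelfStmt) {PP : ∀ V : Type, SimpleGraph V → Prop}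
    (hmin : ∀ (V W : Type) [Finite V] [Finite W] (G : SimpleGraph V) (H : SimpleGraph W),
      IsMinor H G → PP V G → PP W H) (hL : AnySum PP) (w k : ℕ) (C : ℝ) :
    ∃ K : ℝ, ∀ (V ι : Type) [Finite V] [Finite ι] (G : SimpleGraph V) (T : SimpleGraph ι)
      (B : ι → Set V), G.Connected → TDec G T B →
      (∀ t, PP (B t) ((tor G T B t).induce (B t)) ∨
        TreewidthLE ((tor G T B t).induce (B t)) w ∨
        ((bd T B t).ncard ≤ k + 1 ∧
          ∀ A, A ⊆ B t → (G.induce A).Connected → DistortionLE (G.induce A) C)) →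
      DistortionLE G K := by
  obtain ⟨K', hK'⟩ := torso_of hL (max w k)
  obtain ⟨K, hK⟩ := hS (max C K')
  refine ⟨K, fun V ι _ _ G T B hG hT hP => ?_⟩
  by_contra hno
  obtain ⟨W, hW, Q, μ, h1, h2, h3, h4, h5⟩ := hK V G hG hno
  have hc : ∀ a, (G.induce (μ a)).Connected := fun a => (h3 a).1
  refine h2 ((hK' W ι Q T (qb B μ) h1 (hT.model hc h5) fun t => ?_).mono (le_max_right _ _))
  have hm := hT.torso_minor hc h4 h5 t
  rcases hP t with h | h | ⟨hk, hb⟩
  · exact Or.inl (hmin _ _ _ _ hm h)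
  · exact Or.inr (tw_mono (tw_minor h hm) (le_max_left _ _))
  · refine Or.inr (tw_mono (tw_small' _ ?_) (le_max_right _ _))
    refine le_trans ?_ hk
    refine qb_card h4 fun a ha => ?_
    by_contra h6
    exact (h3 a).2 ((hb _ (hT.sub_bag (hc a) ha h6) (hc a)).mono (le_max_left _ _))

end Vale.Agent.P235.H786
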