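import Vale.Agent.P235.H786.W3Fin
import Vale.Agent.P235.H786.TExt

/-!
# Theorem W on top of a theorem on clique sums: rooted form (helper786)
-/

set_option autoImplicit false

namespace Vale.Agent.P235.H786

open SimpleGraph Vale.Agent.P235 Vale.Agent.P235.H134 Vale.Agent.P235.H750
open Vale.Agent.P235.K5 (Bef Adh Glued CliqueSum)

/-- the minors of the torso of the bag `B t`, whose branch sets cover `B t` and each meet the
boundary of `B t`, are in `PP` or have treewidth at most `w` -/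
def RootAt {V ι : Type} (PP : ∀ V : Type, SimpleGraph V → Prop) (G : SimpleGraph V)
    (T : SimpleGraph ι) (B : ι → Set V) (w : ℕ) (t : ι) : Prop :=
  ∀ (W : Type) [Finite W] (Q : SimpleGraph W) (μ : W → Set V),
    (∀ v, v ∈ B t ↔ ∃ a, v ∈ μ a) →
    (∀ a, ((tor G T B t).induce (μ a)).Connected ∧ (μ a ∩ bd T B t).Nonempty) →
    (∀ a b, a ≠ b → Disjoint (μ a) (μ b)) →
    (∀ a b, Q.Adj a b → ∃ x ∈ μ a, ∃ y ∈ μ b, (tor G T B t).Adj x y) →
    PP W Q ∨ TreewidthLE Q w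

/-- small boundaries -/
theorem rootAt_of_card {V ι : Type} [Finite V] {PP : ∀ V : Type, SimpleGraph V → Prop}
    {G : SimpleGraph V} {T : SimpleGraph ι} {B : ι → Set V} {w : ℕ} {t : ι}
    (h : (bd T B t).ncard ≤ w + 1) : RootAt PP G T B w t := by
  intro W _ Q μ _ h1 h2 _
  refine Or.inr (tw_small' Q ?_)
  refine le_trans ?_ h
  classical
  have h5 : ∀ a : W, ∃ x, x ∈ μ a ∧ x ∈ bd T B t := fun a => (h1 a).2
  choose f hf1 hf2 using h5
  rw [← Set.ncard_univ]
  refine Set.ncard_le_ncard_of_injOn f (fun a _ => hf2 a) ?_ (Set.toFinite _)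
  intro a _ b _ hab
  by_contra hne
  exact Set.disjoint_left.1 (h2 a b hne) (hf1 a) (hab ▸ hf1 b)

/-- **(W3)** adhesions of any size; bags with bounded `c₁` and, up to minors which keep all branch
sets at the boundary, torsos in `PP` or of bounded treewidth -/
theorem w3_root (hS : SelfStmt) {PP : ∀ V : Type, SimpleGraph V → Prop}
    (hmin : ∀ (V W : Type) [Finite V] [Finite W] (G : SimpleGraph V) (H : SimpleGraph W),
      IsMinor H G → PP V G → PP W H) (hL : AnySum PP) (w : ℕ) (C : ℝ) :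
    ∃ K : ℝ, ∀ (V ι : Type) [Finite V] [Finite ι] (G : SimpleGraph V) (T : SimpleGraph ι)
      (B : ι → Set V), G.Connected → TDec G T B →
      (∀ t, PP (B t) ((tor G T B t).induce (B t)) ∨
        TreewidthLE ((tor G T B t).induce (B t)) w ∨
        ((∀ A, A ⊆ B t → (G.induce A).Connected → DistortionLE (G.induce A) C) ∧
          ((bd T B t).ncard ≤ w + 1 ∨ RootAt PP G T B w t))) →
      DistortionLE G K := by
  obtain ⟨K', hK'⟩ := torso_of hL w
  obtain ⟨K, hK⟩ := hS (max C K')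
  refine ⟨K, fun V ι _ _ G T B hG hT hP => ?_⟩
  by_contra hno
  obtain ⟨W, hW, Q, μ0, h1, h2, h3, h4, h5⟩ := hK V G hG hno
  obtain ⟨μ, g1, g2, g3, g4⟩ := extend hG _ μ0 rfl h1.nonempty (fun a => (h3 a).1) h4
  have g5 : ∀ a b, Q.Adj a b → ∃ x ∈ μ a, ∃ y ∈ μ b, G.Adj x y := by
    intro a b hab
    obtain ⟨x, hx, y, hy, hxy⟩ := h5 a b hab
    exact ⟨x, g1 a hx, y, g1 b hy, hxy⟩
  refine h2 ((hK' W ι Q T (qb B μ) h1 (hT.model g2 g5) fun t => ?_).mono (le_max_right _ _))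
  have hm := hT.torso_minor g2 g3 g5 t
  rcases hP t with h | h | ⟨hb, h⟩
  · exact Or.inl (hmin _ _ _ _ hm h)
  · exact Or.inr (tw_minor h hm)
  · have hr : RootAt PP G T B w t := by
      rcases h with h | h
      · exact rootAt_of_card h
      · exact h
    -- no branch set lies in this bag
    have hbag : ∀ a, ¬ μ a ⊆ B t := fun a ha =>
      (h3 a).2 ((hb _ ((g1 a).trans ha) (h3 a).1).mono (le_max_left _ _))
    refine hr (qb B μ t) _ (fun a => μ a.1 ∩ B t) (fun v => ⟨fun hv => ?_, ?_⟩)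
      (fun a => ⟨?_, ?_⟩) ?_ ?_
    · obtain ⟨a, ha⟩ := g4 v
      exact ⟨⟨a, v, ha, hv⟩, ha, hv⟩
    · rintro ⟨a, ha⟩
      exact ha.2
    · exact H535.conn V ι G T B t (μ a.1) hT (g2 a.1) a.2
    · by_contra h6
      refine hbag a.1 (hT.sub_bag (g2 a.1) a.2 fun ⟨x, hx, hxb⟩ => h6 ⟨x, ⟨hx, hxb.1⟩, hxb⟩)
    · intro a b hab
      exact (g3 a.1 b.1 fun e => hab (Subtype.ext e)).mono Set.inter_subset_left
        Set.inter_subset_left
    · rintro ⟨a, ha⟩ ⟨b, hb'⟩ hadj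
      obtain ⟨hne, -, -, hadj⟩ : (tor Q T (qb B μ) t).Adj a b := hadj
      rcases hadj with hadj | ⟨s, hts, has, hbs⟩
      · exact hT.tor_adj g2 g3 g5 hadj ha hb'
      · obtain ⟨x, hx, hxt, hxs⟩ := hT.sep (g2 a) hts ha has
        obtain ⟨y, hy, hyt, hys⟩ := hT.sep (g2 b) hts hb' hbs
        refine ⟨x, ⟨hx, hxt⟩, y, ⟨hy, hyt⟩, ?_, hxt, hyt, Or.inr ⟨s, hts, hxs, hys⟩⟩
        rintro rfl
        exact Set.disjoint_left.1 (g3 a b hne) hx hy

end Vale.Agent.P235.H786
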