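import Vale.Agent.P235.H786.SXPlug
import Vale.Agent.P235.K5.EX.H452.All
import Vale.Agent.P235.ST.H742.TwGlue
import Vale.Agent.P235.H206.Final
import Vale.Agent.P235.ST.H626.Sums
import Vale.Agent.P235.H191.Dec

/-!
# Theorem W on top of line EX: adhesions of at most three vertices, torsos in any minor closed class
whose connected members have an exact edge property (helper786)
-/

set_option autoImplicit false

namespace Vale.Agent.P235.H786

open SimpleGraph Vale.Agent.P235 Vale.Agent.P235.H134 Vale.Agent.P235.H750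
open Vale.Agent.P235.K5 (Bef Adh Glued CliqueSum)
open Vale.Agent.P235.K5.H803 (split_aux in_one_bag noSep_of_rel)

/-- a clique sum over at most three vertices is one with nonempty connected pieces, each inside one
of the given pieces -/
theorem atoms3 {V : Type} [Finite V] {H : SimpleGraph V} {n : ℕ} {B : ℕ → Set V}
    (h : Glued 3 H n B) :
    ∃ (n' : ℕ) (B' : ℕ → Set V), Glued 3 H n' B' ∧ (∀ s < n', (H.induce (B' s)).Connected) ∧
      ∀ s < n', ∃ t < n, B' s ⊆ B t := by
  rcases isEmpty_or_nonempty V with hV | hV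
  · exact ⟨0, fun _ => ∅, ⟨fun v => (hV.false v).elim, by omega, by omega, by omega⟩, by omega,
      by omega⟩
  · obtain ⟨m, C, hm, _, _, hv, hk, hq, he, hne, ha⟩ :=
      split_aux H 3 (Set.univ : Set V).ncard Set.univ le_rfl Set.univ_nonempty ∅
        (Set.empty_subset _) (by simp) (by simp)
    refine ⟨m, C, ⟨fun v => hv v trivial, hk, hq, he⟩, fun s hs => ?_,
      fun s hs => in_one_bag h (hne s hs) (noSep_of_rel (ha s hs))⟩
    have hnt : Nonempty (C s) := (hne s hs).to_subtype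
    exact ⟨(noSep_of_rel (ha s hs)).preconnected⟩

/-- clique sums over at most three vertices of graphs in a minor closed class whose connected
members are `EdgeIso D`, and graphs of treewidth at most `w` -/
theorem sum3_of {PP : ∀ V : Type, SimpleGraph V → Prop}
    (hmin : ∀ (V W : Type) [Finite V] [Finite W] (G : SimpleGraph V) (H : SimpleGraph W),
      IsMinor H G → PP V G → PP W H) {D : ℝ}
    (hD : ∀ (V : Type) [Finite V] (G : SimpleGraph V), G.Connected → PP V G → EdgeIso G D)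
    (w : ℕ) :
    ∃ K : ℝ, ∀ (V : Type) [Finite V] (G H : SimpleGraph V) (n : ℕ) (B : ℕ → Set V),
      G ≤ H → G.Connected → Glued 3 H n B →
      (∀ t < n, PP (B t) (H.induce (B t)) ∨ TreewidthLE (H.induce (B t)) w) →
      DistortionLE G K := by
  obtain ⟨D', hD'1, hD'⟩ := ST.H742.tw_edgeIso w
  have h1 : (1 : ℝ) ≤ max D D' := hD'1.trans (le_max_right _ _)
  have h0 : (0 : ℝ) < max D D' := by linarith
  obtain ⟨K, -, hK⟩ := K5.EX.H452.ex (1 / max D D') (by positivity)
    (by rw [div_le_one h0]; exact h1)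
  refine ⟨K, fun V _ G H n B hGH hG hB hp => hK V G H hGH hG ?_⟩
  obtain ⟨n', B', hB', hc, hs⟩ := atoms3 hB
  refine ⟨n', B', hB', fun s hs' => ⟨hc s hs', ?_⟩⟩
  refine EdgeIso.edgeExact h0 fun _ => ?_
  obtain ⟨t, ht, hsub⟩ := hs s hs'
  rcases hp t ht with h | h
  · have hm : IsMinor (H.induce (B' s)) (H.induce (B t)) := K5.H803.minor_mono hsub
      (H191.minor_refl _)
    exact ST.H626.EdgeIso.mono' (hD _ _ (hc s hs') (hmin _ _ _ _ hm h)) (le_max_left _ _)
  · exact ST.H626.EdgeIso.mono' (hD' _ _ (hc s hs')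
      (h.comap (fun x : B' s => (⟨x.1, hsub x.2⟩ : B t))
      (fun x y hxy => Subtype.ext (congrArg (fun z : B t => (z : V)) hxy))
      (fun x y hxy => hxy))) (le_max_right _ _)

/-- **torso form**, adhesions of at most three vertices -/
theorem torso3_of {PP : ∀ V : Type, SimpleGraph V → Prop}
    (hmin : ∀ (V W : Type) [Finite V] [Finite W] (G : SimpleGraph V) (H : SimpleGraph W),
      IsMinor H G → PP V G → PP W H) {D : ℝ}
    (hD : ∀ (V : Type) [Finite V] (G : SimpleGraph V), G.Connected → PP V G → EdgeIso G D)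
    (w : ℕ) :
    ∃ K : ℝ, ∀ (V ι : Type) [Finite V] [Finite ι] (G : SimpleGraph V) (T : SimpleGraph ι)
      (B : ι → Set V), G.Connected → TDec G T B →
      (∀ t s, T.Adj t s → (B t ∩ B s).ncard ≤ 3) →
      (∀ t, PP (B t) ((tor G T B t).induce (B t)) ∨
        TreewidthLE ((tor G T B t).induce (B t)) w) → DistortionLE G K := by
  obtain ⟨K, hK⟩ := sum3_of hmin hD w
  refine ⟨K, fun V ι _ _ G T B hG hT h3 hP => ?_⟩
  obtain ⟨f, hf⟩ := hT.glued h3
  refine hK V G (full G T B) _ _ le_full hG hf fun t _ => ?_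
  rw [hT.full_tor]
  exact hP _

/-- **(W4)** adhesions of at most three vertices, torsos in any minor closed class whose connected
members are `EdgeIso D` or of treewidth at most `w`, and arbitrary bags with bounded `c₁` and, up to
minors which keep all branch sets at the boundary, torsos of these two kinds -/
theorem w4 (hS : SelfStmt) {PP : ∀ V : Type, SimpleGraph V → Prop}
    (hmin : ∀ (V W : Type) [Finite V] [Finite W] (G : SimpleGraph V) (H : SimpleGraph W),
      IsMinor H G → PP V G → PP W H) {D : ℝ}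
    (hD : ∀ (V : Type) [Finite V] (G : SimpleGraph V), G.Connected → PP V G → EdgeIso G D)
    (w : ℕ) (C : ℝ) :
    ∃ K : ℝ, ∀ (V ι : Type) [Finite V] [Finite ι] (G : SimpleGraph V) (T : SimpleGraph ι)
      (B : ι → Set V), G.Connected → TDec G T B →
      (∀ t s, T.Adj t s → (B t ∩ B s).ncard ≤ 3) →
      (∀ t, PP (B t) ((tor G T B t).induce (B t)) ∨
        TreewidthLE ((tor G T B t).induce (B t)) w ∨
        ((∀ A, A ⊆ B t → (G.induce A).Connected → DistortionLE (G.induce A) C) ∧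
          ((bd T B t).ncard ≤ w + 1 ∨ RootAt PP G T B w t))) →
      DistortionLE G K := by
  obtain ⟨K', hK'⟩ := torso3_of hmin hD w
  obtain ⟨K, hK⟩ := hS (max C K')
  refine ⟨K, fun V ι _ _ G T B hG hT hadh hP => ?_⟩
  by_contra hno
  obtain ⟨W, hW, Q, μ0, h1, h2, h3, h4, h5⟩ := hK V G hG hno
  obtain ⟨μ, g1, g2, g3, g4⟩ := extend hG _ μ0 rfl h1.nonempty (fun a => (h3 a).1) h4
  have g5 : ∀ a b, Q.Adj a b → ∃ x ∈ μ a, ∃ y ∈ μ b, G.Adj x y := by
    intro a b hab
    obtain ⟨x, hx, y, hy, hxy⟩ := h5 a b hab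
    exact ⟨x, g1 a hx, y, g1 b hy, hxy⟩
  refine h2 ((hK' W ι Q T (qb B μ) h1 (hT.model g2 g5)
    (fun t s hts => (hT.adh_card g2 g3 hts).trans (hadh t s hts)) fun t => ?_).mono
      (le_max_right _ _))
  have hm := hT.torso_minor g2 g3 g5 t
  rcases hP t with h | h | ⟨hb, h⟩
  · exact Or.inl (hmin _ _ _ _ hm h)
  · exact Or.inr (tw_minor h hm)
  · have hr : RootAt PP G T B w t := by
      rcases h with h | h
      · exact rootAt_of_card h
      · exact h
    -- no branch set lies in this bag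
    have hbag : ∀ a, ¬ μ a ⊆ B t := fun a ha =>
      (h3 a).2 ((hb _ ((g1 a).trans ha) (h3 a).1).mono (le_max_left _ _))
    refine hr (qb B μ t) _ (fun a => μ a.1 ∩ B t) (fun v => ⟨fun hv => ?_, ?_⟩)
      (fun a => ⟨?_, ?_⟩) ?_ ?_
    · obtain ⟨a, ha⟩ := g4 v
      exact ⟨⟨a, v, ha, hv⟩, ha, hv⟩
    · rintro ⟨a, ha⟩
      exact ha.2
    · exact H535.conn V ι G T B t (μ a.1) hT (g2 a.1) a.2
    · by_contra h6
      refine hbag a.1 (hT.sub_bag (g2 a.1) a.2 fun ⟨x, hx, hxb⟩ => h6 ⟨x, ⟨hx, hxb.1⟩, hxb⟩)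
    · intro a b hab
      exact (g3 a.1 b.1 fun e => hab (Subtype.ext e)).mono Set.inter_subset_left
        Set.inter_subset_left
    · rintro ⟨a, ha⟩ ⟨b, hb'⟩ hadj
      obtain ⟨hne, -, -, hadj⟩ : (tor Q T (qb B μ) t).Adj a b := hadj
      rcases hadj with hadj | ⟨s, hts, has, hbs⟩
      · exact hT.tor_adj g2 g3 g5 hadj ha hb'
      · obtain ⟨x, hx, hxt, hxs⟩ := hT.sep (g2 a) hts ha has
        obtain ⟨y, hy, hyt, hys⟩ := hT.sep (g2 b) hts hb' hbs
        refine ⟨x, ⟨hx, hxt⟩, y, ⟨hy, hyt⟩, ?_, hxt, hyt, Or.inr ⟨s, hts, hxs, hys⟩⟩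
        rintro rfl
        exact Set.disjoint_left.1 (g3 a b hne) hx hy

end Vale.Agent.P235.H786
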